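import Vale.Agent.P067.Cob.Building.Action

/-!
The balanced lattices form the infinite coset complex: every simplex at a standard vertex is a
translate of a standard one, and the balanced complex is connected.
-/

namespace Vale.Agent.P067.Cob.Bld

open Finset Polynomial

open scoped Classical

attribute [-instance] Subtype.instDecidableEq

variable {p k : ℕ} [Fact p.Prime] [NeZero k]

theorem eq_of_interval {c a b : ℤ} (ha : c - k < a ∧ a ≤ c) (hb : c - k < b ∧ b ≤ c)
    (h : (Lat.res a : Fin k) = Lat.res b) : a = b := by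
  obtain ⟨j, hj⟩ := Lat.exists_shift_of_res h
  have hk : (0 : ℤ) < k := by exact_mod_cast NeZero.pos k
  have : j = 0 := by
    rcases lt_trichotomy j 0 with h0 | h0 | h0
    · have := mul_le_mul_of_nonneg_left (show j ≤ -1 by omega) hk.le; omega
    · exact h0
    · have := mul_le_mul_of_nonneg_left (show 1 ≤ j by omega) hk.le; omega
  subst this
  simpa using hj

theorem top_interval {F : Type} [Field F] {N : Lat F k} {c : ℤ}
    (h : ∀ x, c - k < N.top x ∧ N.top x ≤ c) (q : ℤ) (hq : c - k < q ∧ q ≤ c) :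
    N.top (Lat.res q) = q :=
  eq_of_interval (h _) hq (N.res_top _)

theorem mem_Ords_of_le {F : Type} [Field F] {N : Lat F k} {c : ℤ}
    (h : ∀ x, c - k < N.top x ∧ N.top x ≤ c) {q : ℤ} (hq : q ≤ c) : q ∈ Ords N.car := by
  rw [N.mem_Ords_iff]
  obtain ⟨j, hj⟩ := Lat.exists_shift_of_res (N.res_top (Lat.res q))
  have hk : (0 : ℤ) < k := by exact_mod_cast NeZero.pos k
  have : 0 ≤ j := by
    by_contra hneg
    have := mul_le_mul_of_nonneg_left (show j ≤ -1 by omega) hk.le
    have := (h (Lat.res q)).1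
    omega
  have := mul_nonneg hk.le this
  omega

/-- The position in the window below `-i` of a residue class. -/
def wp (i l : Fin k) : ℤ := if i.val ≤ l.val then -(l.val : ℤ) else -(l.val : ℤ) - k

omit [NeZero k] in
theorem wp_mem (i l : Fin k) : -(i.val : ℤ) - k < wp i l ∧ wp i l ≤ -(i.val : ℤ) := by
  have := i.isLt
  have := l.isLt
  unfold wp
  split_ifs <;> omega

theorem res_wp (i l : Fin k) : (Lat.res (wp i l) : Fin k) = l := by
  unfold wp
  split_ifs
  · exact Lat.res_neg l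
  · rw [show -(l.val : ℤ) - k = -(l.val : ℤ) + k * -1 by ring, Lat.res_add, Lat.res_neg]

/-- A flag of vectors in the window below `-i` is the image of the standard one under an element
of the vertex group. -/
theorem exists_flag (i : Fin k) (w : Fin k → VV (ZMod p))
    (hw : ∀ l, w l ∈ Below (-(i.val : ℤ)) ∧ IsOrd (w l) (wp i l) ∧ w l (wp i l) = 1) :
    ∃ h ∈ KGam p k i, ∀ l, actV h (Finsupp.single (wp i l) 1) = w l := by
  set H : Matrix (Fin k) (Fin k) (ZMod p)[X] := fun m l => if m = l then 1 else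
    if ltc i m l then Polynomial.C (w l (wp i m)) * X ^ dlt m l else 0 with hH
  have hdet : H.det = 1 := by
    rw [← Matrix.det_submatrix_equiv_self (Equiv.addLeft i) H, Matrix.det_of_isUpperTriangular]
    · exact Finset.prod_eq_one fun a _ => by simp [hH, Matrix.submatrix]
    · intro a b hab
      have hlt : b < a := hab
      show H (i + a) (i + b) = 0
      simp only [hH]
      rw [if_neg fun e => hlt.ne' (add_left_cancel e), if_neg]
      unfold ltc
      simp only [add_sub_cancel_left]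
      exact fun h => lt_asymm h (Fin.lt_def.1 hlt)
  have hGam : (⟨H, hdet⟩ : Matrix.SpecialLinearGroup (Fin k) (ZMod p)[X]) ∈ Gam p k := by
    refine ⟨fun m l hne hml => ?_, fun m => ?_⟩
    · show H m l ∈ _
      simp only [hH, if_neg hne]
      split_ifs
      · have : l < m := lt_of_le_of_ne (not_lt.1 hml) (Ne.symm hne)
        rw [dlt, if_pos this, pow_one]
        exact Ideal.mul_mem_left _ _ (Ideal.mem_span_singleton_self _)
      · exact Ideal.zero_mem _
    · show H m m - 1 ∈ _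
      simp [hH]
  have hK : (⟨⟨H, hdet⟩, hGam⟩ : Gam p k) ∈ KGam p k i :=
    mem_KGam_iff.2 fun m l => ⟨w l (wp i m), rfl⟩
  refine ⟨⟨⟨H, hdet⟩, hGam⟩, hK, fun l => ?_⟩
  set g : Gam p k := ⟨⟨H, hdet⟩, hGam⟩ with hg
  set v := actV g (Finsupp.single (wp i l) 1) with hv
  have hvA : v ∈ Above (wp i l) := (isOrd_actV_single g _).2
  have hvB : v ∈ Below (-(i.val : ℤ)) :=
    stdV_stable hK (Submodule.mem_map_of_mem (single_mem_Below (wp_mem i l).2 1))
  ext r
  by_cases hr : wp i l ≤ r ∧ r ≤ -(i.val : ℤ)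
  · set m : Fin k := Lat.res r with hm
    have hrm : r = wp i m := eq_of_interval (c := -(i.val : ℤ))
      ⟨lt_of_lt_of_le (wp_mem i l).1 hr.1, hr.2⟩ (wp_mem i m) (res_wp i m).symm
    set d : ℕ := dlt m l with hd
    have hpos : r - (wp i l + (l.val : ℤ)) = (k : ℤ) * d - m.val ∧ (m = l ∨ ltc i m l) := by
      have := i.isLt
      have := l.isLt
      have := m.isLt
      rw [hd, hrm]
      have h1 := hr.1
      rw [hrm] at h1
      unfold ltc dlt
      rw [val_sub_eq, val_sub_eq]
      simp only [wp, Fin.lt_def, Fin.ext_iff] at *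
      constructor
      · split_ifs at * <;> simp <;> omega
      · split_ifs at * <;> omega
    rw [hv, actV, mact_single, one_smul, res_wp, sh_apply, hpos.1, iota_pos]
    show (H m l).coeff d = _
    simp only [hH]
    by_cases hml : m = l
    · rw [if_pos hml, hrm, hml, (hw l).2.2]
      subst hml
      simp [hd, dlt]
    · rw [if_neg hml, if_pos (hpos.2.resolve_left hml), hrm, Polynomial.coeff_C_mul,
        Polynomial.coeff_X_pow, if_pos hd, mul_one]
  · have h1 : v r = 0 := by
      by_contra hne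
      exact hr ⟨mem_Above.1 hvA r hne, mem_Below.1 hvB r hne⟩
    have h2 : w l r = 0 := by
      by_contra hne
      exact hr ⟨mem_Above.1 (hw l).2.1.2 r hne, mem_Below.1 (hw l).1 r hne⟩
    rw [h1, h2]

/-- A balanced simplex at a standard vertex is a translate, by an element of the vertex group,
of a standard simplex. -/
theorem star (i : Fin k) {σ : Finset (Vtx (ZMod p) k)} (hσ : (BalC (ZMod p) k).face σ)
    (hi : stdV i ∈ σ) : ∃ h ∈ KGam p k i, ∀ u ∈ σ, ∃ i', u = vact h (stdV i') := by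
  set c : ℤ := -(i.val : ℤ) with hc
  have hk : (0 : ℤ) < k := by exact_mod_cast NeZero.pos k
  have hdata : ∀ u ∈ σ.erase (stdV i), ∃ (N : Lat (ZMod p) k) (c' : ℤ),
      Btw (stdV i) N ∧ nrm N = u ∧ (∀ x, c' - k < N.top x ∧ N.top x ≤ c') := by
    intro u hu
    obtain ⟨hne, hu'⟩ := Finset.mem_erase.1 hu
    obtain ⟨N, hN, rfl⟩ := exists_btw (hσ.1 u hu' (stdV i) hi) hne
    obtain ⟨a, ha⟩ := top_nrm N
    have hb : Bal (fun x => N.top x + a) := ha ▸ hσ.2 _ hu'
    obtain ⟨c', hc'⟩ := (bal_iff fun x y h => N.top_injective (add_right_cancel h)).1 hb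
    exact ⟨N, c' - a, hN, rfl, fun x => by have := hc' x; omega⟩
  have : Nonempty (Lat (ZMod p) k) := ⟨half 0⟩
  choose! N cN hN hNu hint using hdata
  have hmono : ∀ u ∈ σ.erase (stdV i), ∀ u' ∈ σ.erase (stdV i), (N u).car ≤ (N u').car →
      cN u ≤ cN u' := by
    intro u hu u' hu' hle
    have h1 := Lat.top_mono hle (Lat.res (cN u))
    rw [top_interval (hint u hu) _ ⟨by omega, le_rfl⟩] at h1
    exact h1.trans (hint u' hu' _).2
  have hle' : ∀ u ∈ σ.erase (stdV i), ∀ u' ∈ σ.erase (stdV i), cN u ≤ cN u' →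
      (N u).car ≤ (N u').car := by
    intro u hu u' hu' hle
    have hcomp := ((hN u hu).adj_iff (hN u' hu')).1 (by
      rw [hNu u hu, hNu u' hu']
      exact hσ.1 u (Finset.mem_of_mem_erase hu) u' (Finset.mem_of_mem_erase hu'))
    rcases hcomp with h | h
    · exact h
    · have he : cN u = cN u' := le_antisymm hle (hmono u' hu' u hu h)
      refine le_of_eq (congrArg Lat.car (Lat.eq_of_top h fun x => le_of_eq ?_).symm)
      exact eq_of_interval (hint u hu x) (he ▸ hint u' hu' x)
        ((Lat.res_top _ x).trans (Lat.res_top _ x).symm)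
  have hwex : ∀ l : Fin k, ∃ w : VV (ZMod p),
      w ∈ Below c ∧ IsOrd w (wp i l) ∧ w (wp i l) = 1 ∧
        ∀ u ∈ σ.erase (stdV i), wp i l ≤ cN u → w ∈ (N u).car := by
    intro l
    by_cases hex : ∃ u ∈ σ.erase (stdV i), wp i l ≤ cN u
    · obtain ⟨u, hu, hmin⟩ := Finset.exists_min_image
        ((σ.erase (stdV i)).filter fun u => wp i l ≤ cN u) cN
        (by obtain ⟨u, hu, h⟩ := hex; exact ⟨u, Finset.mem_filter.2 ⟨hu, h⟩⟩)
      obtain ⟨hu1, hu2⟩ := Finset.mem_filter.1 hu
      obtain ⟨v, hv, hvo⟩ := mem_Ords_of_le (hint u hu1) hu2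
      refine ⟨(v (wp i l))⁻¹ • v, Submodule.smul_mem _ _ ((hN u hu1).2.1 hv), ⟨?_,
        Submodule.smul_mem _ _ hvo.2⟩, ?_, fun u' hu' hle =>
        Submodule.smul_mem _ _ (hle' u hu1 u' hu' (hmin u' (Finset.mem_filter.2 ⟨hu', hle⟩)) hv)⟩
      · simp [hvo.1]
      · simp [hvo.1]
    · push Not at hex
      exact ⟨Finsupp.single (wp i l) 1, single_mem_Below (wp_mem i l).2 1, isOrd_single _,
        by simp, fun u hu hle => absurd hle (not_le.2 (hex u hu))⟩
  choose w hw1 hw2 hw3 hw4 using hwex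
  obtain ⟨h, hh, hact⟩ := exists_flag i w fun l => ⟨hw1 l, hw2 l, hw3 l⟩
  refine ⟨h, hh, fun u hu => ?_⟩
  by_cases he : u = stdV i
  · exact ⟨i, he.trans (vact_stdV_of_mem hh).symm⟩
  have hu' := Finset.mem_erase.2 ⟨he, hu⟩
  have hsub : (lact h (half (cN u))).car ≤ (N u).car := by
    rintro _ ⟨v, hv, rfl⟩
    change v ∈ Below (cN u) at hv
    rw [Below, Finsupp.supported_eq_span_single] at hv
    refine (Submodule.span_le (p := (N u).car.comap (actV h))).2 ?_ hv
    rintro _ ⟨q, hq, rfl⟩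
    show actV h (Finsupp.single q 1) ∈ (N u).car
    by_cases hlow : q ≤ c - k
    · refine (hN u hu').1 ?_
      have hst : lact h (half (c + k * -1)) = (half c : Lat (ZMod p) k).shift (-1) := by
        rw [← half_shift, lact_shift, hc, lact_half_of_mem hh]
      have h1 : actV h (Finsupp.single q 1) ∈ (lact h (half (c + k * -1))).car :=
        Submodule.mem_map_of_mem (single_mem_Below (by omega) 1)
      rw [hst] at h1
      exact h1
    · have hqc : q ≤ c := by
        have h1 := top_interval (hint u hu') (cN u) ⟨by omega, le_rfl⟩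
        obtain ⟨v', hv', hvq⟩ := (N u).top_mem (Lat.res (cN u))
        have := hvq.le_of_mem_Below ((hN u hu').2.1 hv')
        have hq' : q ≤ cN u := hq
        omega
      have hqw : q = wp i (Lat.res q) := eq_of_interval (c := c) ⟨by omega, hqc⟩
        (wp_mem i _) (res_wp i _).symm
      rw [hqw, hact]
      exact hw4 _ u hu' (hqw ▸ hq)
  have heq : lact h (half (cN u)) = N u := by
    refine Lat.eq_of_top hsub fun x => le_of_eq ?_
    rw [top_lact]
    exact eq_of_interval (hint u hu' x) (top_half _ x)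
      ((Lat.res_top _ x).trans (Lat.res_top _ x).symm)
  obtain ⟨j, hj⟩ := Lat.exists_shift_of_res (k := k) (q := cN u)
    (q' := -((Lat.res (cN u) : Fin k).val : ℤ)) (by rw [Lat.res_neg])
  refine ⟨Lat.res (cN u), ?_⟩
  refine (hNu u hu').symm.trans ?_
  conv_lhs => rw [← heq, hj, ← half_shift, lact_shift, nrm_shift]
  rfl

/-- The vertex map from the coset complex to lattices. -/
noncomputable def phi (x : (i : Fin k) × (Gam p k ⧸ KGam p k i)) : Vtx (ZMod p) k :=
  vact x.2.out (stdV x.1)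

theorem phi_mk (i : Fin k) (g : Gam p k) :
    phi ⟨i, (g : Gam p k ⧸ KGam p k i)⟩ = vact g (stdV i) := by
  obtain ⟨κ, hκ⟩ := QuotientGroup.mk_out_eq_mul (KGam p k i) g
  show vact (Quotient.out (g : Gam p k ⧸ KGam p k i)) (stdV i) = _
  rw [hκ, vact_mul, vact_stdV_of_mem κ.2]

theorem phi_injective : Function.Injective (phi (p := p) (k := k)) := by
  rintro ⟨i, x⟩ ⟨i', x'⟩ h
  obtain ⟨g, rfl⟩ := QuotientGroup.mk_surjective x
  obtain ⟨g', rfl⟩ := QuotientGroup.mk_surjective x'
  rw [phi_mk, phi_mk] at h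
  have h' : vact (g'⁻¹ * g) (stdV i) = stdV i' := by
    rw [vact_mul, h, ← vact_mul, inv_mul_cancel, vact_one]
  obtain ⟨rfl, hm⟩ := eq_of_vact_stdV h'
  exact congrArg (Sigma.mk i) (QuotientGroup.eq.2 hm).symm

theorem balC_vact (g : Gam p k) {σ : Finset (Vtx (ZMod p) k)} (h : (BalC (ZMod p) k).face σ) :
    (BalC (ZMod p) k).face (σ.image (vact g)) := by
  refine ⟨fun a ha b hb => ?_, fun a ha => ?_⟩
  · obtain ⟨a, ha', rfl⟩ := Finset.mem_image.1 ha
    obtain ⟨b, hb', rfl⟩ := Finset.mem_image.1 hb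
    exact vact_adj g (h.1 a ha' b hb')
  · obtain ⟨a, ha', rfl⟩ := Finset.mem_image.1 ha
    exact vbal_vact g (h.2 a ha')

/-- A balanced simplex through a vertex in the orbit is a translate of a standard simplex. -/
theorem face_orbit {σ : Finset (Vtx (ZMod p) k)} (hσ : (BalC (ZMod p) k).face σ)
    {g : Gam p k} {i : Fin k} (hi : vact g (stdV i) ∈ σ) :
    ∃ h : Gam p k, ∀ u ∈ σ, ∃ i', u = vact h (stdV i') := by
  have h1 : stdV i ∈ σ.image (vact g⁻¹) :=
    Finset.mem_image.2 ⟨_, hi, by rw [← vact_mul, inv_mul_cancel, vact_one]⟩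
  obtain ⟨h, -, hh⟩ := star i (balC_vact g⁻¹ hσ) h1
  refine ⟨g * h, fun u hu => ?_⟩
  obtain ⟨i', hi'⟩ := hh _ (Finset.mem_image_of_mem _ hu)
  exact ⟨i', by rw [vact_mul, ← hi', ← vact_mul, mul_inv_cancel, vact_one]⟩

/-- Connectivity: every balanced vertex is in the orbit of a standard one. -/
theorem exists_orbit (hex : (BalC (ZMod p) k).Ex 2) {v : Vtx (ZMod p) k} (hv : VBal v) :
    ∃ g i, v = vact g (stdV i) := by
  by_contra hcon
  set I : Set (Vtx (ZMod p) k) := {u | ∃ g i, u = vact g (stdV i)} with hI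
  set v₀ : Vtx (ZMod p) k := stdV 0 with hv₀
  have hv₀I : v₀ ∈ I := ⟨1, 0, (vact_one _).symm⟩
  have hsing : ∀ u : Vtx (ZMod p) k, VBal u → (BalC (ZMod p) k).face {u} := fun u hu =>
    ⟨face_singleton u, fun x hx => by rw [Finset.mem_singleton] at hx; exact hx ▸ hu⟩
  set z : Chain (Vtx (ZMod p) k) := Finsupp.single {v₀} 1 + Finsupp.single {v} 1 with hz
  have hzc : z ∈ (BalC (ZMod p) k).chains 1 := by
    refine Submodule.add_mem _ ?_ ?_ <;> refine (Band.mem_chains _).2 fun σ hσ => ?_ <;>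
      rw [Finset.mem_singleton.1 (Finsupp.support_single_subset hσ)]
    · exact ⟨hsing _ (vbal_stdV 0), Finset.card_singleton _⟩
    · exact ⟨hsing _ hv, Finset.card_singleton _⟩
  have hbd : bd z = 0 := by
    simp [hz, Band.bd_single, Band.add_self]
  obtain ⟨w, hw, hwz⟩ := hex 1 one_lt_two z hzc hbd
  set cnt : Chain (Vtx (ZMod p) k) →ₗ[ZMod 2] ZMod 2 := Finsupp.linearCombination (ZMod 2)
    fun σ : Finset (Vtx (ZMod p) k) => if ∃ u ∈ I, σ = {u} then 1 else 0 with hcnt
  have hzero : cnt (bd w) = 0 := by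
    rw [Band.chain_sum w, map_sum, map_sum]
    refine Finset.sum_eq_zero fun σ hσ => ?_
    obtain ⟨hf, hc⟩ := (Band.mem_chains _).1 hw σ hσ
    obtain ⟨a, b, hab, rfl⟩ := Finset.card_eq_two.1 hc
    have hiff : a ∈ I ↔ b ∈ I := by
      constructor
      · rintro ⟨g, i, rfl⟩
        obtain ⟨h, hh⟩ := face_orbit hf (Finset.mem_insert_self _ _)
        obtain ⟨i', hi'⟩ := hh b (by simp)
        exact ⟨h, i', hi'⟩
      · rintro ⟨g, i, rfl⟩
        obtain ⟨h, hh⟩ := face_orbit hf (Finset.mem_insert_of_mem (Finset.mem_singleton_self _))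
        obtain ⟨i', hi'⟩ := hh a (by simp)
        exact ⟨h, i', hi'⟩
    have h1 : ∀ x : Vtx (ZMod p) k, cnt (Finsupp.single {x} 1) = if x ∈ I then 1 else 0 := by
      intro x
      rw [hcnt, Finsupp.linearCombination_single, one_smul]
      exact if_congr ⟨fun ⟨u, hu, e⟩ => Finset.singleton_inj.1 e ▸ hu, fun h => ⟨x, h, rfl⟩⟩ rfl rfl
    have e1 : ({a, b} : Finset (Vtx (ZMod p) k)).erase a = {b} :=
      Finset.erase_insert (by simp [hab])
    have e2 : ({a, b} : Finset (Vtx (ZMod p) k)).erase b = {a} := by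
      rw [Finset.pair_comm]; exact Finset.erase_insert (by simp [Ne.symm hab])
    rw [map_smul, map_smul, Band.bd_single, one_smul, Finset.sum_pair hab, e1, e2, map_add, h1, h1]
    by_cases ha : a ∈ I
    · rw [if_pos ha, if_pos (hiff.1 ha), CharTwo.add_self_eq_zero, smul_zero]
    · rw [if_neg ha, if_neg fun hb => ha (hiff.2 hb), add_zero, smul_zero]
  have hone : cnt z = 1 := by
    have hvI : v ∉ I := fun h => hcon h
    have hne : ∀ u ∈ I, ({v} : Finset (Vtx (ZMod p) k)) ≠ {u} := fun u hu e =>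
      hvI (Finset.singleton_inj.1 e ▸ hu)
    simp only [hz, hcnt, map_add, Finsupp.linearCombination_single, one_smul]
    rw [if_pos ⟨v₀, hv₀I, rfl⟩, if_neg fun ⟨u, hu, e⟩ => hne u hu e, add_zero]
  rw [hwz] at hzero
  rw [hzero] at hone
  exact zero_ne_one hone

/-- The coset complex is exact as far as the balanced complex is. -/
theorem Uc_ex_of_BalC {m : ℕ} (h2 : (BalC (ZMod p) k).Ex 2) (h : (BalC (ZMod p) k).Ex m) :
    (Uc p k Finset.univ).Ex m := by
  refine (Cplx.ex_of_iso (Uc p k Finset.univ) (BalC (ZMod p) k) phi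
    (fun v w _ _ e => phi_injective e) (fun τ => ⟨fun hτ => ?_, ?_⟩) m).2 h
  · rcases τ.eq_empty_or_nonempty with rfl | ⟨u, hu⟩
    · exact ⟨∅, (Uc p k Finset.univ).empty, rfl⟩
    obtain ⟨g, i, rfl⟩ := exists_orbit h2 (hτ.2 u hu)
    obtain ⟨h, hh⟩ := face_orbit hτ hu
    choose! ti hti using hh
    refine ⟨τ.image fun u => ⟨ti u, ((h : Gam p k) : Gam p k ⧸ KGam p k (ti u))⟩,
      ⟨h, fun x hx => ?_⟩, ?_⟩
    · obtain ⟨u, -, rfl⟩ := Finset.mem_image.1 hx
      exact ⟨Finset.mem_univ _, rfl⟩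
    · rw [Finset.image_image]
      conv_rhs => rw [← Finset.image_id (s := τ)]
      refine Finset.image_congr fun u hu => ?_
      simp only [Function.comp_apply, phi_mk, id_eq]
      exact (hti u hu).symm
  · rintro ⟨σ, ⟨g, hg⟩, rfl⟩
    have hst : ∀ x ∈ σ, phi x = vact g (stdV x.1) := by
      intro x hx
      obtain ⟨i, y⟩ := x
      have hy : y = (g : Gam p k ⧸ KGam p k i) := (hg _ hx).2
      rw [hy, phi_mk]
    refine ⟨fun a ha b hb => ?_, fun a ha => ?_⟩
    · obtain ⟨x, hx, rfl⟩ := Finset.mem_image.1 ha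
      obtain ⟨y, hy, rfl⟩ := Finset.mem_image.1 hb
      rw [hst x hx, hst y hy]
      exact vact_adj g (stdV_adj _ _)
    · obtain ⟨x, hx, rfl⟩ := Finset.mem_image.1 ha
      rw [hst x hx]
      exact vbal_vact g (vbal_stdV _)

end Vale.Agent.P067.Cob.Bld
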