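import Vale.Agent.P067.Cob.Building.Complex
import Vale.Agent.P067.Cob.Groups

/-!
The action of the polynomial group on Laurent vectors and on lattices; the stabilisers of the
standard lattices are the vertex groups.
-/

namespace Vale.Agent.P067.Cob.Bld

open Finset Polynomial

open scoped Classical

attribute [-instance] Subtype.instDecidableEq

variable {p k : ℕ} [Fact p.Prime]

/-- Polynomial vectors as Laurent vectors. -/
noncomputable def iota : (Fin k → (ZMod p)[X]) →ₗ[ZMod p] VV (ZMod p) :=
  ∑ m : Fin k, (Polynomial.lsum fun d : ℕ => Finsupp.lsingle ((k : ℤ) * d - m.val)).comp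
    (LinearMap.proj m)

theorem iota_apply (f : Fin k → (ZMod p)[X]) :
    iota f = ∑ m, (f m).sum fun d a => Finsupp.single ((k : ℤ) * d - m.val) a := by
  simp [iota, LinearMap.sum_apply, Polynomial.lsum_apply]

theorem pos_inj {d d' : ℕ} {m m' : Fin k} (h : (k : ℤ) * d - m.val = k * d' - m'.val) :
    d = d' ∧ m = m' := by
  have h1 := m.isLt
  have h2 := m'.isLt
  have hd : (d : ℤ) = d' := by
    rcases lt_trichotomy (d : ℤ) d' with h' | h' | h'
    · nlinarith
    · exact h'
    · nlinarith
  refine ⟨by exact_mod_cast hd, Fin.ext ?_⟩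
  rw [hd] at h
  omega

theorem iota_pos (f : Fin k → (ZMod p)[X]) (d : ℕ) (m : Fin k) :
    iota f ((k : ℤ) * d - m.val) = (f m).coeff d := by
  simp only [iota_apply, Finsupp.finsetSum_apply, Polynomial.sum_def, Finsupp.single_apply]
  rw [Finset.sum_eq_single m]
  · rw [Finset.sum_eq_single d]
    · simp
    · intro d' _ hd
      exact if_neg fun e => hd (pos_inj e).1
    · intro hd
      rw [if_pos rfl]
      simpa using hd
  · intro m' _ hm
    exact Finset.sum_eq_zero fun d' _ => if_neg fun e => hm (pos_inj e).2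
  · simp

theorem exists_pos_of_iota_ne {f : Fin k → (ZMod p)[X]} {q : ℤ} (h : iota f q ≠ 0) :
    ∃ (d : ℕ) (m : Fin k), q = (k : ℤ) * d - m.val := by
  by_contra hcon
  push Not at hcon
  apply h
  simp only [iota_apply, Finsupp.finsetSum_apply, Polynomial.sum_def, Finsupp.single_apply]
  exact Finset.sum_eq_zero fun m _ => Finset.sum_eq_zero fun d _ => if_neg fun e => hcon d m e.symm

theorem iota_single (m : Fin k) (d : ℕ) (a : ZMod p) :
    iota (Pi.single m (monomial d a)) = Finsupp.single ((k : ℤ) * d - m.val) a := by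
  rw [iota_apply, Finset.sum_eq_single m]
  · simp [Polynomial.sum_monomial_index]
  · intro m' _ hm
    simp [hm, Polynomial.sum_def]
  · simp

theorem iota_monomial_mul (f : Fin k → (ZMod p)[X]) (d : ℕ) (a : ZMod p) :
    iota (fun m => f m * monomial d a) = a • sh ((k : ℤ) * d) (iota f) := by
  ext q
  simp only [Finsupp.smul_apply, sh_apply, smul_eq_mul]
  by_cases hq : ∃ (e : ℕ) (m : Fin k), q = (k : ℤ) * e - m.val
  · obtain ⟨e, m, rfl⟩ := hq
    rw [iota_pos, ← Polynomial.C_mul_X_pow_eq_monomial, ← mul_assoc, Polynomial.coeff_mul_X_pow']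
    by_cases he : d ≤ e
    · rw [if_pos he, Polynomial.coeff_mul_C, show (k : ℤ) * e - m.val - k * d = k * ((e - d : ℕ) : ℤ) - m.val by
        push_cast [he]; ring, iota_pos]
      ring
    · rw [if_neg he]
      by_contra hne
      obtain ⟨d', m', hd'⟩ := exists_pos_of_iota_ne fun h0 => hne (by rw [h0, mul_zero])
      have h' : (k : ℤ) * e - m.val = k * ((d' + d : ℕ) : ℤ) - m'.val := by
        push_cast; linarith
      have := (pos_inj h').1
      omega
  · have h1 : iota (fun m => f m * monomial d a) q = 0 := by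
      by_contra hne
      exact hq (exists_pos_of_iota_ne hne)
    have h2 : iota f (q - k * d) = 0 := by
      by_contra hne
      obtain ⟨d', m', hd'⟩ := exists_pos_of_iota_ne hne
      exact hq ⟨d' + d, m', by push_cast; linarith⟩
    rw [h1, h2, mul_zero]

variable [NeZero k]

/-- The action on Laurent vectors of a matrix. -/
noncomputable def mact (M : Matrix (Fin k) (Fin k) (ZMod p)[X]) :
    VV (ZMod p) →ₗ[ZMod p] VV (ZMod p) :=
  Finsupp.linearCombination (ZMod p) fun q : ℤ =>
    sh (q + ((Lat.res q : Fin k).val : ℤ)) (iota fun m => M m (Lat.res q))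

theorem mact_single (M : Matrix (Fin k) (Fin k) (ZMod p)[X]) (q : ℤ) (a : ZMod p) :
    mact M (Finsupp.single q a) =
      a • sh (q + ((Lat.res q : Fin k).val : ℤ)) (iota fun m => M m (Lat.res q)) := by
  simp [mact, Finsupp.linearCombination_single]

theorem mact_sh (M : Matrix (Fin k) (Fin k) (ZMod p)[X]) (j : ℤ) (v : VV (ZMod p)) :
    mact M (sh ((k : ℤ) * j) v) = sh ((k : ℤ) * j) (mact M v) := by
  induction v using Finsupp.induction with
  | zero => simp
  | single_add q a v _ _ ih =>
    simp only [map_add, sh_single, mact_single, ih, map_smul, sh_sh, Lat.res_add]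
    congr 3
    ring_nf

theorem mact_iota (M : Matrix (Fin k) (Fin k) (ZMod p)[X]) (f : Fin k → (ZMod p)[X]) :
    mact M (iota f) = iota (M.mulVec f) := by
  have hmono : ∀ (m : Fin k) (q : (ZMod p)[X]),
      mact M (iota (Pi.single m q)) = iota (M.mulVec (Pi.single m q)) := by
    intro m q
    induction q using Polynomial.induction_on' with
    | add a b ha hb => simp only [Pi.single_add, map_add, Matrix.mulVec_add, ha, hb]
    | monomial d a =>
      have hres : (Lat.res ((k : ℤ) * d - m.val) : Fin k) = m := by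
        rw [show (k : ℤ) * d - m.val = -(m.val : ℤ) + k * d by ring, Lat.res_add, Lat.res_neg]
      rw [iota_single, mact_single, hres]
      rw [show M.mulVec (Pi.single m (monomial d a)) = fun i => M i m * monomial d a from
        funext fun i => by simp [Matrix.mulVec_single], iota_monomial_mul]
      congr 3
      ring
  rw [← Finset.univ_sum_single f, Matrix.mulVec_sum, map_sum, map_sum, map_sum]
  exact Finset.sum_congr rfl fun m _ => hmono m (f m)

theorem mact_mul (M N : Matrix (Fin k) (Fin k) (ZMod p)[X]) (v : VV (ZMod p)) :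
    mact (M * N) v = mact M (mact N v) := by
  induction v using Finsupp.induction with
  | zero => simp
  | single_add q a v _ _ ih =>
    obtain ⟨j, hj⟩ := Lat.exists_shift_of_res (k := k) (q := q)
      (q' := -((Lat.res q : Fin k).val : ℤ)) (by rw [Lat.res_neg])
    have hsh : q + ((Lat.res q : Fin k).val : ℤ) = k * j := by linarith
    simp only [map_add, mact_single, map_smul, ih, hsh, mact_sh, mact_iota]
    congr 4

theorem mact_one (v : VV (ZMod p)) : mact (1 : Matrix (Fin k) (Fin k) (ZMod p)[X]) v = v := by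
  induction v using Finsupp.induction with
  | zero => simp
  | single_add q a v _ _ ih =>
    rw [map_add, ih, mact_single]
    have h : (fun m => (1 : Matrix (Fin k) (Fin k) (ZMod p)[X]) m (Lat.res q)) =
        Pi.single (Lat.res q) (monomial 0 1) := funext fun m => by
      simp [Matrix.one_apply, Pi.single_apply]
    rw [h, iota_single, sh_single, Finsupp.smul_single', mul_one]
    congr 2
    ring

/-- The action of the polynomial group. -/
noncomputable def actV (g : Gam p k) : VV (ZMod p) →ₗ[ZMod p] VV (ZMod p) :=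
  mact (g.1 : Matrix (Fin k) (Fin k) (ZMod p)[X])

theorem actV_mul (g h : Gam p k) (v : VV (ZMod p)) : actV (g * h) v = actV g (actV h v) := by
  simp only [actV, Subgroup.coe_mul, Matrix.SpecialLinearGroup.coe_mul, mact_mul]

theorem actV_one (v : VV (ZMod p)) : actV (1 : Gam p k) v = v := by
  simp only [actV, OneMemClass.coe_one, Matrix.SpecialLinearGroup.coe_one, mact_one]

theorem coeff_zero_of_mem {a : (ZMod p)[X]} (h : a ∈ Ideal.span {(X : (ZMod p)[X])}) :
    a.coeff 0 = 0 := Polynomial.X_dvd_iff.1 (Ideal.mem_span_singleton.1 h)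

omit [NeZero k] in
theorem entry_zero_diag (g : Gam p k) (l : Fin k) : (g.1 l l).coeff 0 = 1 := by
  have h := coeff_zero_of_mem (g.2.2 l)
  rw [Polynomial.coeff_sub, Polynomial.coeff_one_zero, sub_eq_zero] at h
  exact h

omit [NeZero k] in
theorem entry_zero_off (g : Gam p k) {m l : Fin k} (hne : m ≠ l) (h : ¬ m < l) :
    (g.1 m l).coeff 0 = 0 := coeff_zero_of_mem (g.2.1 m l hne h)

omit [NeZero k] in
theorem isOrd_col (g : Gam p k) (l : Fin k) :
    IsOrd (iota fun m => g.1 m l) (-(l.val : ℤ)) := by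
  have h0 : -(l.val : ℤ) = (k : ℤ) * ((0 : ℕ) : ℤ) - l.val := by simp
  refine ⟨?_, mem_Above.2 fun q hq => ?_⟩
  · rw [h0, iota_pos, entry_zero_diag]
    exact one_ne_zero
  · obtain ⟨d, m, rfl⟩ := exists_pos_of_iota_ne hq
    rw [iota_pos] at hq
    rcases Nat.eq_zero_or_pos d with rfl | hd
    · by_cases hml : m = l
      · subst hml; simp
      by_cases hlt : m < l
      · have : m.val < l.val := hlt
        simp; omega
      · exact absurd (entry_zero_off g hml hlt) hq
    · have h1 : (k : ℤ) * 1 ≤ k * d :=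
        mul_le_mul_of_nonneg_left (by exact_mod_cast hd) (by positivity)
      have := m.isLt
      have := l.isLt
      omega

theorem isOrd_actV_single (g : Gam p k) (q : ℤ) : IsOrd (actV g (Finsupp.single q 1)) q := by
  rw [actV, mact_single, one_smul]
  convert (isOrd_col g (Lat.res q)).shift (q + ((Lat.res q : Fin k).val : ℤ)) using 1
  ring

theorem actV_mem_Above (g : Gam p k) {c : ℤ} {v : VV (ZMod p)} (hv : v ∈ Above c) :
    actV g v ∈ Above c := by
  rw [Above, Finsupp.supported_eq_span_single] at hv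
  refine (Submodule.span_le (p := (Above c).comap (actV g))).2 ?_ hv
  rintro _ ⟨q, hq, rfl⟩
  exact Above_anti hq (isOrd_actV_single g q).2

theorem isOrd_actV (g : Gam p k) {v : VV (ZMod p)} {q : ℤ} (h : IsOrd v q) :
    IsOrd (actV g v) q := by
  have h1 : v - v q • Finsupp.single q 1 ∈ Above (q + 1) := mem_Above.2 fun q' hq' => by
    by_contra hlt
    by_cases he : q' = q
    · subst he; simp at hq'
    · simp [Finsupp.single_eq_of_ne he] at hq'
      have := mem_Above.1 h.2 q' hq'
      omega
  have h2 := actV_mem_Above g h1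
  have h3 : IsOrd (v q • actV g (Finsupp.single q 1)) q :=
    ⟨by simp [h.1, (isOrd_actV_single g q).1], Submodule.smul_mem _ _ (isOrd_actV_single g q).2⟩
  have := h3.add h2
  rwa [← map_smul, ← map_add, add_sub_cancel] at this

theorem exists_bound (g : Gam p k) :
    ∃ D : ℤ, ∀ c v, v ∈ Below c → actV g v ∈ Below (c + D) := by
  refine ⟨(k : ℤ) + k * (Finset.univ.sup fun x : Fin k × Fin k => (g.1 x.1 x.2).natDegree : ℕ),
    fun c v hv => ?_⟩
  rw [Below, Finsupp.supported_eq_span_single] at hv
  refine (Submodule.span_le (p := (Below _).comap (actV g))).2 ?_ hv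
  rintro _ ⟨q, hq, rfl⟩
  show actV g (Finsupp.single q 1) ∈ Below _
  rw [actV, mact_single, one_smul, sh_mem_Below, mem_Below]
  intro r hr
  obtain ⟨d, m, rfl⟩ := exists_pos_of_iota_ne hr
  rw [iota_pos] at hr
  have h1 : d ≤ Finset.univ.sup fun x : Fin k × Fin k => (g.1 x.1 x.2).natDegree :=
    (Polynomial.le_natDegree_of_ne_zero hr).trans
      (Finset.le_sup (f := fun x : Fin k × Fin k => (g.1 x.1 x.2).natDegree)
        (Finset.mem_univ (m, Lat.res q)))
  have h2 := mul_le_mul_of_nonneg_left (Int.ofNat_le.2 h1) (Int.natCast_nonneg k)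
  have hq' : q ≤ c := hq
  have := (Lat.res q : Fin k).isLt
  omega

/-- The action on lattices. -/
noncomputable def lact (g : Gam p k) (M : Lat (ZMod p) k) : Lat (ZMod p) k where
  car := M.car.map (actV g)
  sh_mem := by
    rintro v ⟨u, hu, rfl⟩
    refine ⟨sh (-(k : ℤ)) u, M.sh_mem u hu, ?_⟩
    rw [show -(k : ℤ) = k * -1 by ring, actV, mact_sh]
  lo := by
    obtain ⟨a, ha⟩ := M.lo
    obtain ⟨D, hD⟩ := exists_bound g⁻¹
    refine ⟨a - D, fun v hv => ⟨actV g⁻¹ v, ha ?_, by rw [← actV_mul, mul_inv_cancel, actV_one]⟩⟩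
    have := hD (a - D) v hv
    rwa [sub_add_cancel] at this
  hi := by
    obtain ⟨c, hc⟩ := M.hi
    obtain ⟨D, hD⟩ := exists_bound g
    exact ⟨c + D, by rintro _ ⟨u, hu, rfl⟩; exact hD c u (hc hu)⟩

theorem lact_mul (g h : Gam p k) (M : Lat (ZMod p) k) : lact (g * h) M = lact g (lact h M) := by
  ext v
  simp only [lact, Submodule.mem_map]
  constructor
  · rintro ⟨u, hu, rfl⟩
    exact ⟨_, ⟨u, hu, rfl⟩, (actV_mul g h u).symm⟩
  · rintro ⟨_, ⟨u, hu, rfl⟩, rfl⟩
    exact ⟨u, hu, actV_mul g h u⟩

theorem lact_one (M : Lat (ZMod p) k) : lact 1 M = M := by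
  ext v
  simp [lact, actV_one]

theorem lact_shift (g : Gam p k) (M : Lat (ZMod p) k) (j : ℤ) :
    lact g (M.shift j) = (lact g M).shift j := by
  ext v
  simp only [lact, Lat.shift, Submodule.mem_map, LinearEquiv.coe_coe]
  constructor
  · rintro ⟨_, ⟨u, hu, rfl⟩, rfl⟩
    exact ⟨_, ⟨u, hu, rfl⟩, (mact_sh _ j u).symm⟩
  · rintro ⟨_, ⟨u, hu, rfl⟩, rfl⟩
    exact ⟨_, ⟨u, hu, rfl⟩, mact_sh _ j u⟩

theorem lact_mono (g : Gam p k) {M N : Lat (ZMod p) k} (h : M.car ≤ N.car) :
    (lact g M).car ≤ (lact g N).car := Submodule.map_mono h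

theorem top_lact (g : Gam p k) (M : Lat (ZMod p) k) : (lact g M).top = M.top := by
  have hsub : ∀ (g : Gam p k) (M : Lat (ZMod p) k) x, M.top x ≤ (lact g M).top x := fun g M x => by
    obtain ⟨v, hv, hq⟩ := M.top_mem x
    have := (lact g M).le_top ⟨actV g v, Submodule.mem_map_of_mem hv, isOrd_actV g hq⟩
    rwa [Lat.res_top] at this
  funext x
  refine le_antisymm ?_ (hsub g M x)
  have := hsub g⁻¹ (lact g M) x
  rwa [← lact_mul, inv_mul_cancel, lact_one] at this

/-- The action on vertices. -/
noncomputable def vact (g : Gam p k) (v : Vtx (ZMod p) k) : Vtx (ZMod p) k := nrm (lact g v.1)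

theorem vact_nrm (g : Gam p k) (M : Lat (ZMod p) k) : vact g (nrm M) = nrm (lact g M) := by
  obtain ⟨j, hj⟩ := M.exists_idx
  rw [vact, nrm_eq hj, lact_shift, nrm_shift]

theorem vact_mul (g h : Gam p k) (v : Vtx (ZMod p) k) : vact (g * h) v = vact g (vact h v) := by
  rw [vact, lact_mul, ← vact_nrm, ← vact]

theorem vact_one (v : Vtx (ZMod p) k) : vact 1 v = v :=
  Subtype.ext (by rw [vact, lact_one, nrm_of_nml v.2])

theorem vact_adj (g : Gam p k) {u v : Vtx (ZMod p) k} (h : u.1.Adj v.1) :
    (vact g u).1.Adj (vact g v).1 := by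
  have hrel : ∀ {M N : Lat (ZMod p) k}, M.Rel N → (lact g M).Rel (lact g N) := fun h =>
    ⟨lact_mono g h.1, by rw [← lact_shift]; exact lact_mono g h.2⟩
  rcases h with h | h
  · exact adj_nrm (hrel h)
  · exact (adj_nrm (hrel h)).symm

theorem vbal_vact (g : Gam p k) {v : Vtx (ZMod p) k} (h : VBal v) : VBal (vact g v) := by
  obtain ⟨a, ha⟩ := top_nrm (lact g v.1)
  unfold VBal vact
  rw [ha, top_lact]
  unfold Bal M2 at *
  rwa [cc_add_const]

/-- The standard lattice with lowest positions at most `c`. -/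
def half (c : ℤ) : Lat (ZMod p) k where
  car := Below c
  sh_mem v hv := sh_mem_Below.2 (Below_mono (by omega) hv)
  lo := ⟨c, le_rfl⟩
  hi := ⟨c, le_rfl⟩

omit [NeZero k] in
theorem half_shift (c j : ℤ) : (half c : Lat (ZMod p) k).shift j = half (c + k * j) := by
  ext v
  simp only [Lat.mem_shift, half, sh_mem_Below, sub_neg_eq_add]

theorem top_half (c : ℤ) (x : Fin k) :
    c - k < (half c : Lat (ZMod p) k).top x ∧ (half c : Lat (ZMod p) k).top x ≤ c := by
  obtain ⟨v, hv, hq⟩ := (half c : Lat (ZMod p) k).top_mem x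
  refine ⟨?_, hq.le_of_mem_Below hv⟩
  by_contra hle
  have := (half c : Lat (ZMod p) k).le_top (q := (half c : Lat (ZMod p) k).top x + k * 1)
    ⟨_, single_mem_Below (by linarith) 1, isOrd_single _⟩
  rw [Lat.res_add, Lat.res_top] at this
  have : (0 : ℤ) < k := by exact_mod_cast NeZero.pos k
  linarith

omit [NeZero k] in
theorem half_inj {c c' : ℤ} (h : (half c : Lat (ZMod p) k) = half c') : c = c' := by
  have key : ∀ a b : ℤ, (half a : Lat (ZMod p) k) = half b → a ≤ b := by
    intro a b h
    have h' : (Below a : Submodule (ZMod p) (VV (ZMod p))) = Below b := congrArg Lat.car h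
    exact (isOrd_single a).le_of_mem_Below (h' ▸ single_mem_Below (F := ZMod p) le_rfl 1)
  exact le_antisymm (key _ _ h) (key _ _ h.symm)

omit [NeZero k] in
theorem nml_half (i : Fin k) : (half (-(i.val : ℤ)) : Lat (ZMod p) k).Nml := by
  refine ⟨Below_mono (by omega), ?_⟩
  rw [half_shift]
  intro h
  have := (isOrd_single (F := ZMod p) (-(i.val : ℤ) + k * 1)).le_of_mem_Below
    (h (single_mem_Below le_rfl 1))
  have := i.isLt
  omega

/-- The standard vertices. -/
noncomputable def stdV (i : Fin k) : Vtx (ZMod p) k := ⟨half (-(i.val : ℤ)), nml_half i⟩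

omit [NeZero k] in
theorem stdV_adj (i j : Fin k) : (stdV (p := p) i).1.Adj (stdV j).1 := by
  have key : ∀ i j : Fin k, i ≤ j → (stdV (p := p) j).1.Rel (stdV i).1 := fun i j h => by
    have hi : i.val ≤ j.val := h
    have := j.isLt
    refine ⟨Below_mono (by omega), ?_⟩
    show _ ≤ ((half (-(j.val : ℤ)) : Lat (ZMod p) k).shift 1).car
    rw [half_shift]
    exact Below_mono (by omega)
  exact (le_total i j).elim (fun h => Or.inr (key i j h)) fun h => Or.inl (key j i h)

theorem vbal_stdV (i : Fin k) : VBal (stdV (p := p) i) :=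
  (bal_iff (Lat.top_injective _)).2 ⟨_, top_half _⟩

theorem mem_KGam_iff {g : Gam p k} {i : Fin k} : g ∈ KGam p k i ↔ ∀ m l, ∃ c : ZMod p,
    (g.1 : Matrix (Fin k) (Fin k) (ZMod p)[X]) m l =
      if m = l then 1 else if ltc i m l then Polynomial.C c * X ^ dlt m l else 0 := Iff.rfl

theorem stdV_stable {g : Gam p k} {i : Fin k} (hg : g ∈ KGam p k i) :
    (lact g (half (-(i.val : ℤ)))).car ≤ (half (-(i.val : ℤ)) : Lat (ZMod p) k).car := by
  rintro _ ⟨v, hv, rfl⟩
  change v ∈ Below _ at hv
  rw [Below, Finsupp.supported_eq_span_single] at hv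
  refine (Submodule.span_le (p := (Below _).comap (actV g))).2 ?_ hv
  rintro _ ⟨q, hq, rfl⟩
  have hq' : q ≤ -(i.val : ℤ) := hq
  show actV g (Finsupp.single q 1) ∈ Below _
  rw [actV, mact_single, one_smul, sh_mem_Below, mem_Below]
  intro r hr
  obtain ⟨d, m, rfl⟩ := exists_pos_of_iota_ne hr
  rw [iota_pos] at hr
  obtain ⟨j, hj⟩ := Lat.exists_shift_of_res (k := k) (q := q)
    (q' := -((Lat.res q : Fin k).val : ℤ)) (by rw [Lat.res_neg])
  generalize (Lat.res q : Fin k) = l at *
  subst hj
  have hi := i.isLt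
  have hm := m.isLt
  have hl := l.isLt
  have hj0 : j ≤ 0 := by
    by_contra hc
    have := le_mul_of_one_le_right (Int.natCast_nonneg k) (show (1 : ℤ) ≤ j by omega)
    omega
  obtain ⟨c, hc⟩ := mem_KGam_iff.1 hg m l
  rw [hc] at hr
  split_ifs at hr with h1 h2
  · subst h1
    rw [Polynomial.coeff_one] at hr
    obtain rfl : d = 0 := by by_contra h; simp [h] at hr
    simp
    omega
  · rw [Polynomial.coeff_C_mul, Polynomial.coeff_X_pow] at hr
    obtain rfl : d = dlt m l := by by_contra h; simp [h] at hr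
    unfold ltc at h2
    rw [val_sub_eq, val_sub_eq] at h2
    have hjcase : j = 0 ∨ (k : ℤ) * j ≤ -k := by
      rcases hj0.lt_or_eq with h | h
      · right
        calc (k : ℤ) * j ≤ k * -1 := mul_le_mul_of_nonneg_left (by omega) (Int.natCast_nonneg k)
          _ = _ := by ring
      · exact Or.inl h
    unfold dlt
    rcases hjcase with rfl | hj'
    · simp only [Fin.lt_def, mul_zero, add_zero] at *
      split_ifs at h2 ⊢ <;> simp <;> omega
    · simp only [Fin.lt_def] at *
      split_ifs at h2 ⊢ <;> simp <;> omega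
  · simp at hr

theorem mem_KGam_of_stable {g : Gam p k} {i : Fin k}
    (h : (lact g (half (-(i.val : ℤ)))).car ≤ (half (-(i.val : ℤ)) : Lat (ZMod p) k).car) :
    g ∈ KGam p k i := by
  rw [mem_KGam_iff]
  intro m l
  have hi := i.isLt
  have hm := m.isLt
  have hl := l.isLt
  set z : ℤ := if i.val ≤ l.val then 0 else -1 with hz
  have hbound : ∀ d : ℕ, (g.1 m l).coeff d ≠ 0 → (k : ℤ) * z + (k * d - m.val) ≤ -(i.val : ℤ) := by
    intro d hd
    have hmem : Finsupp.single (-(l.val : ℤ) + k * z) (1 : ZMod p) ∈ Below (-(i.val : ℤ)) :=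
      single_mem_Below (by rw [hz]; split_ifs <;> omega) 1
    have := h (Submodule.mem_map_of_mem (f := actV g) hmem)
    change actV g _ ∈ Below _ at this
    rw [actV, mact_single, one_smul, Lat.res_add, Lat.res_neg, sh_mem_Below] at this
    have := mem_Below.1 this ((k : ℤ) * d - m.val) (by rwa [iota_pos])
    omega
  have hsupp : ∀ d : ℕ, (g.1 m l).coeff d ≠ 0 →
      (m = l ∧ d = 0) ∨ (m ≠ l ∧ ltc i m l ∧ d = dlt m l) := by
    intro d hd
    have hb := hbound d hd
    have hd2 : d = 0 ∨ (d = 1 ∧ l.val < i.val ∧ i.val ≤ m.val) := by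
      rcases Nat.eq_zero_or_pos d with h0 | h0
      · exact Or.inl h0
      right
      have hkd : (k : ℤ) * 1 ≤ k * d :=
        mul_le_mul_of_nonneg_left (by exact_mod_cast h0) (Int.natCast_nonneg k)
      have hz1 : z = -1 := by
        by_contra hne
        have : z = 0 := by rw [hz] at hne ⊢; split_ifs at hne ⊢ <;> simp_all
        rw [this] at hb
        omega
      have hli : l.val < i.val := by
        rw [hz] at hz1; split_ifs at hz1 with h'; omega
      rw [hz1] at hb
      have hd1 : d = 1 := by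
        by_contra hne
        have : (k : ℤ) * 2 ≤ k * d :=
          mul_le_mul_of_nonneg_left (by exact_mod_cast (show 2 ≤ d by omega)) (Int.natCast_nonneg k)
        omega
      subst hd1
      exact ⟨rfl, hli, by omega⟩
    by_cases hml : m = l
    · subst hml
      exact Or.inl ⟨rfl, by omega⟩
    right
    have hml' : m.val ≠ l.val := fun e => hml (Fin.ext e)
    unfold ltc dlt
    rw [val_sub_eq, val_sub_eq]
    rcases hd2 with rfl | ⟨rfl, h1, h2⟩
    · have hlt : m < l := by
        by_contra hnot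
        exact hd (entry_zero_off g hml hnot)
      have hlt' : m.val < l.val := hlt
      rw [hz] at hb
      refine ⟨hml, ?_, ?_⟩
      · split_ifs at hb ⊢ <;> simp at hb <;> omega
      · rw [if_neg (asymm hlt)]
    · refine ⟨hml, ?_, ?_⟩
      · split_ifs <;> omega
      · rw [if_pos (show l < m from show l.val < m.val by omega)]
  refine ⟨(g.1 m l).coeff (dlt m l), ?_⟩
  ext d
  by_cases hd : (g.1 m l).coeff d = 0
  · rw [hd]
    split_ifs with h1 h2
    · subst h1
      rw [Polynomial.coeff_one, if_neg]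
      rintro rfl
      rw [entry_zero_diag] at hd
      exact one_ne_zero hd
    · rw [Polynomial.coeff_C_mul, Polynomial.coeff_X_pow]
      by_cases he : d = dlt m l
      · subst he; simp [hd]
      · simp [he]
    · simp
  · rcases hsupp d hd with ⟨h1, rfl⟩ | ⟨h1, h2, rfl⟩
    · subst h1
      simp [entry_zero_diag]
    · simp [h1, h2]

theorem lact_half_of_mem {g : Gam p k} {i : Fin k} (hg : g ∈ KGam p k i) :
    lact g (half (-(i.val : ℤ))) = (half (-(i.val : ℤ)) : Lat (ZMod p) k) := by
  refine Lat.ext (le_antisymm (stdV_stable hg) ?_)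
  intro v hv
  have := lact_mono g (stdV_stable ((KGam p k i).inv_mem hg))
  rw [← lact_mul, mul_inv_cancel, lact_one] at this
  exact this hv

theorem vact_stdV_of_mem {g : Gam p k} {i : Fin k} (hg : g ∈ KGam p k i) :
    vact g (stdV i) = stdV i := by
  show nrm (lact g (half _)) = _
  rw [lact_half_of_mem hg]
  exact Subtype.ext (nrm_of_nml (nml_half i))

theorem eq_of_vact_stdV {g : Gam p k} {i i' : Fin k} (h : vact g (stdV i) = stdV i') :
    i = i' ∧ g ∈ KGam p k i := by
  have h' : (nrm (lact g (half (-(i.val : ℤ))) : Lat (ZMod p) k)).1 = half (-(i'.val : ℤ)) :=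
    congrArg Subtype.val h
  obtain ⟨j, hj⟩ := (lact g (half (-(i.val : ℤ))) : Lat (ZMod p) k).exists_idx
  rw [nrm_eq hj, ← lact_shift, half_shift] at h'
  have ht := (top_lact g _).symm.trans (congrArg (fun M : Lat (ZMod p) k => M.top) h')
  have hbound : ∀ c c' : ℤ, (half c : Lat (ZMod p) k).top = (half c' : Lat (ZMod p) k).top →
      c ≤ c' := fun c c' h => by
    have h1 := (half c : Lat (ZMod p) k).le_top ⟨_, single_mem_Below le_rfl 1, isOrd_single c⟩
    rw [h] at h1
    exact h1.trans (top_half c' _).2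
  have he : -(i.val : ℤ) + k * j = -(i'.val : ℤ) :=
    le_antisymm (hbound _ _ ht) (hbound _ _ ht.symm)
  have hi := i.isLt
  have hi' := i'.isLt
  have hj0 : j = 0 := by
    rcases lt_trichotomy j 0 with h0 | h0 | h0
    · have := mul_le_mul_of_nonneg_left (show j ≤ -1 by omega) (Int.natCast_nonneg k); omega
    · exact h0
    · have := mul_le_mul_of_nonneg_left (show 1 ≤ j by omega) (Int.natCast_nonneg k); omega
  subst hj0
  simp only [mul_zero, add_zero] at h' he
  obtain rfl : i = i' := Fin.ext (by omega)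
  exact ⟨rfl, mem_KGam_of_stable (le_of_eq (congrArg Lat.car h'))⟩

end Vale.Agent.P067.Cob.Bld
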