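import Vale.Agent.P067.Band.Fills

/-!
Pushing chains off vertices with exact descending links, and cones with an apex.
-/

namespace Vale.Agent.P067.Cob.Bld

open Finset

open scoped Classical

variable {V : Type*}

/-- A complex with an apex is exact in all sizes. -/
theorem ex_of_apex (K : Cplx V) (a : V) (h : ∀ σ, K.face σ → K.face (insert a σ)) (m : ℕ) :
    K.Ex m := by
  refine Band.ex_of_cone K (N := 1)
    ⟨fun σ => if a ∈ σ then 0 else Finsupp.single (insert a σ) 1, fun σ hσ _ => ?_⟩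
  by_cases ha : a ∈ σ
  · refine ⟨by simp [ha], by simp [ha], ?_⟩
    rw [Finset.sum_eq_single a]
    · simp [ha, Finset.insert_erase ha]
    · intro v _ hv
      simp [Finset.mem_erase, ha, Ne.symm hv]
    · exact fun h => absurd ha h
  · simp only [ha, if_false]
    refine ⟨(Band.mem_chains K).2 fun τ hτ => ?_, ?_, ?_⟩
    · rw [Finset.mem_singleton.1 (Finsupp.support_single_subset hτ)]
      exact ⟨h σ hσ, Finset.card_insert_of_notMem ha⟩
    · exact (Finset.card_le_card Finsupp.support_single_subset).trans (by simp)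
    · rw [Band.bd_single, one_smul, Finset.sum_insert ha, Finset.erase_insert ha,
        add_assoc, ← Finset.sum_add_distrib, Finset.sum_eq_zero, add_zero]
      intro v hv
      rw [if_neg fun hm => ha (Finset.mem_of_mem_erase hm),
        Finset.erase_insert_of_ne fun e => ha (by rwa [e]), Band.add_self]

variable {κ : Type*} [LinearOrder κ] [WellFoundedLT κ] (K : Cplx V) (P : V → Prop) (key : V → κ)
  (m : ℕ)

/-- **Morse push.** A chain whose boundary has all vertices in `P` is homologous, relative to its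
boundary, to one with all vertices in `P`. -/
theorem push
    (hne : ∀ σ, K.face σ → ∀ u ∈ σ, ∀ v ∈ σ, ¬P u → ¬P v → key u = key v → u = v)
    (hlink : ∀ v, ¬P v → K.face {v} →
      ((K.link {v}).restrict fun u => P u ∨ key u < key v).Ex m)
    {j : ℕ} (hj : j ≤ m) (z : Chain V) (hz : z ∈ K.chains j)
    (hbd : ∀ σ ∈ (bd z).support, ∀ v ∈ σ, P v) :
    ∃ z' ∈ (K.restrict P).chains j, bd z' = bd z ∧ ∃ y ∈ K.chains (j + 1), z = z' + bd y := by
  have fin : ∀ z : Chain V, z ∈ K.chains j → (∀ σ ∈ z.support, ∀ v ∈ σ, P v) →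
      z ∈ (K.restrict P).chains j := fun z hz h => (Band.mem_chains _).2 fun σ hσ =>
    ⟨⟨((Band.mem_chains K).1 hz σ hσ).1, h σ hσ⟩, ((Band.mem_chains K).1 hz σ hσ).2⟩
  -- the statement below a given key
  have step : ∀ a : κ, ∀ z : Chain V, z ∈ K.chains j → (∀ σ ∈ (bd z).support, ∀ v ∈ σ, P v) →
      (∀ σ ∈ z.support, ∀ v ∈ σ, P v ∨ key v ≤ a) →
      ∃ z' ∈ (K.restrict P).chains j, bd z' = bd z ∧ ∃ y ∈ K.chains (j + 1), z = z' + bd y := by
    intro a
    induction a using WellFoundedLT.induction with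
    | _ a ih =>
      intro z hz hbd hle
      set K' := K.restrict fun v => P v ∨ key v ≤ a with hK'
      set Q : V → Prop := fun v => ¬P v ∧ key v = a with hQ
      have hzK' : z ∈ K'.chains j := (Band.mem_chains K').2 fun σ hσ =>
        ⟨⟨((Band.mem_chains K).1 hz σ hσ).1, hle σ hσ⟩, ((Band.mem_chains K).1 hz σ hσ).2⟩
      have hlk0 : ∀ U, Q U → Band.lk U (bd z) = 0 := by
        intro U hU
        rw [← Finsupp.support_eq_empty, Finset.eq_empty_iff_forall_notMem]
        intro ρ hρ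
        obtain ⟨σ, hσ, hm, -⟩ := Band.lk_supp U _ ρ hρ
        exact hU.1 (hbd σ hσ U hm)
      have hex : ∀ U ∈ (z.support.biUnion id).filter Q, ∃ w : Chain V,
          (∀ σ ∈ w.support, σ.card = j ∧ U ∉ σ ∧ K'.face (insert U σ) ∧ ∀ x ∈ σ, ¬Q x) ∧
            bd w = Band.lk U z := by
        intro U hU
        obtain ⟨hU1, hUQ⟩ := Finset.mem_filter.1 hU
        obtain ⟨σ₀, hσ₀, hUσ₀⟩ := Finset.mem_biUnion.1 hU1
        obtain ⟨hfσ₀, hcσ₀⟩ := (Band.mem_chains K).1 hz σ₀ hσ₀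
        have hj1 : 1 ≤ j := hcσ₀ ▸ Finset.card_pos.2 ⟨U, hUσ₀⟩
        have hcyc : bd (Band.lk U z) = 0 := by rw [← Band.lk_bd, hlk0 U hUQ]
        have hLU : K.face {U} := K.down hfσ₀ (Finset.singleton_subset_iff.2 hUσ₀)
        obtain ⟨w, hw, hwb⟩ := hlink U hUQ.1 hLU (j - 1) (by omega) (Band.lk U z)
          ((Band.mem_chains _).2 fun ρ hρ => by
            obtain ⟨σ, hσ, hm, rfl⟩ := Band.lk_supp U z ρ hρ
            obtain ⟨hf, hc⟩ := (Band.mem_chains K).1 hz σ hσ
            refine ⟨⟨Or.inr ⟨Finset.disjoint_singleton_right.2 (Finset.notMem_erase U σ), ?_⟩,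
              fun u hu => ?_⟩, by rw [Finset.card_erase_of_mem hm, hc]⟩
            · rwa [Finset.union_comm, ← Finset.insert_eq, Finset.insert_erase hm]
            · obtain ⟨hne', hu'⟩ := Finset.mem_erase.1 hu
              rcases hle σ hσ u hu' with h | h
              · exact Or.inl h
              · by_cases hP : P u
                · exact Or.inl hP
                · refine Or.inr (lt_of_le_of_ne (hUQ.2 ▸ h) fun e => hne' ?_)
                  exact hne σ hf u hu' U hm hP hUQ.1 e) hcyc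
        refine ⟨w, fun σ hσ => ?_, hwb⟩
        obtain ⟨⟨hlf, hP⟩, hc⟩ := (Band.mem_chains _).1 hw σ hσ
        have hc' : σ.card = j := by omega
        rcases hlf with rfl | ⟨hd, hf⟩
        · simp at hc'; omega
        have hUσ : U ∉ σ := Finset.disjoint_singleton_right.1 hd
        refine ⟨hc', hUσ, ⟨by rwa [Finset.union_comm, ← Finset.insert_eq] at hf, fun v hv => ?_⟩,
          fun x hx hxQ => ?_⟩
        · rcases Finset.mem_insert.1 hv with rfl | hv
          · exact Or.inr hUQ.2.le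
          · exact (hP v hv).imp id fun h => hUQ.2 ▸ h.le
        · rcases hP x hx with h | h
          · exact hxQ.1 h
          · exact absurd hxQ.2 (hUQ.2 ▸ h).ne
      choose! w hw hwb using hex
      obtain ⟨z', hz', hz'b, -, y, hy, -, hzy⟩ := Band.clear K' Q j
        (((z.support.biUnion id).filter Q).sup fun U => (w U).support.card) z hzK'
        (fun σ hσ U hU U' hU' h h' => hne σ hσ.1 U hU U' hU' h.1 h'.1 (h.2.trans h'.2.symm))
        hlk0 (fun U hU σ₀ hσ₀ hUσ₀ _ => by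
          have hmem : U ∈ (z.support.biUnion id).filter Q :=
            Finset.mem_filter.2 ⟨Finset.mem_biUnion.2 ⟨σ₀, hσ₀, hUσ₀⟩, hU⟩
          exact ⟨w U, hw U hmem, hwb U hmem, Finset.le_sup (f := fun U => (w U).support.card) hmem⟩)
      have hy' : y ∈ K.chains (j + 1) := (Band.mem_chains K).2 fun σ hσ =>
        ⟨((Band.mem_chains K').1 hy σ hσ).1.1, ((Band.mem_chains K').1 hy σ hσ).2⟩
      have hz'K : z' ∈ K.chains j := (Band.mem_chains K).2 fun σ hσ =>
        ⟨((Band.mem_chains _).1 hz' σ hσ).1.1.1, ((Band.mem_chains _).1 hz' σ hσ).2⟩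
      have hlt : ∀ σ ∈ z'.support, ∀ v ∈ σ, ¬P v → key v < a := fun σ hσ v hv hP => by
        obtain ⟨⟨hf, hnQ⟩, -⟩ := (Band.mem_chains _).1 hz' σ hσ
        rcases hf.2 v hv with h | h
        · exact absurd h hP
        · exact lt_of_le_of_ne h fun e => hnQ v hv ⟨hP, e⟩
      by_cases hall : ∀ σ ∈ z'.support, ∀ v ∈ σ, P v
      · exact ⟨z', fin z' hz'K hall, hz'b, y, hy', hzy⟩
      push Not at hall
      obtain ⟨σ₁, hσ₁, v₁, hv₁, hP₁⟩ := hall
      obtain ⟨v₂, hv₂, hmax⟩ := Finset.exists_max_image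
        ((z'.support.biUnion id).filter fun v => ¬P v) key
        ⟨v₁, Finset.mem_filter.2 ⟨Finset.mem_biUnion.2 ⟨σ₁, hσ₁, hv₁⟩, hP₁⟩⟩
      obtain ⟨hv₂', hP₂⟩ := Finset.mem_filter.1 hv₂
      obtain ⟨σ₂, hσ₂, hv₂σ⟩ := Finset.mem_biUnion.1 hv₂'
      obtain ⟨z'', h1, h2, y', h3, h4⟩ := ih (key v₂) (hlt σ₂ hσ₂ v₂ hv₂σ hP₂) z' hz'K
        (hz'b ▸ hbd) fun σ hσ v hv => by
          by_cases hP : P v
          · exact Or.inl hP
          · exact Or.inr (hmax v (Finset.mem_filter.2 ⟨Finset.mem_biUnion.2 ⟨σ, hσ, hv⟩, hP⟩))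
      exact ⟨z'', h1, h2.trans hz'b, y' + y, Submodule.add_mem _ h3 hy',
        by rw [hzy, h4, map_add]; abel⟩
  by_cases hall : ∀ σ ∈ z.support, ∀ v ∈ σ, P v
  · exact ⟨z, fin z hz hall, rfl, 0, Submodule.zero_mem _, by simp⟩
  push Not at hall
  obtain ⟨σ₁, hσ₁, v₁, hv₁, hP₁⟩ := hall
  obtain ⟨v₂, -, hmax⟩ := Finset.exists_max_image
    ((z.support.biUnion id).filter fun v => ¬P v) key
    ⟨v₁, Finset.mem_filter.2 ⟨Finset.mem_biUnion.2 ⟨σ₁, hσ₁, hv₁⟩, hP₁⟩⟩
  refine step (key v₂) z hz hbd fun σ hσ v hv => ?_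
  by_cases hP : P v
  · exact Or.inl hP
  · exact Or.inr (hmax v (Finset.mem_filter.2 ⟨Finset.mem_biUnion.2 ⟨σ, hσ, hv⟩, hP⟩))

/-- Removing the vertices outside `P` keeps exactness. -/
theorem ex_restrict
    (hne : ∀ σ, K.face σ → ∀ u ∈ σ, ∀ v ∈ σ, ¬P u → ¬P v → key u = key v → u = v)
    (hlink : ∀ v, ¬P v → K.face {v} →
      ((K.link {v}).restrict fun u => P u ∨ key u < key v).Ex m)
    (h : K.Ex m) : (K.restrict P).Ex m := by
  intro j hj z hz hzc
  have hzK : z ∈ K.chains j := (Band.mem_chains K).2 fun σ hσ =>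
    ⟨((Band.mem_chains _).1 hz σ hσ).1.1, ((Band.mem_chains _).1 hz σ hσ).2⟩
  obtain ⟨w, hw, hwb⟩ := h j hj z hzK hzc
  obtain ⟨w', hw', hw'b, -⟩ := push K P key m hne hlink (j := j + 1) hj w hw
    fun σ hσ => ((Band.mem_chains _).1 hz σ (hwb ▸ hσ)).1.2
  exact ⟨w', hw', hw'b.trans hwb⟩

/-- Exactness passes up from the vertices in `P`. -/
theorem ex_of_restrict
    (hne : ∀ σ, K.face σ → ∀ u ∈ σ, ∀ v ∈ σ, ¬P u → ¬P v → key u = key v → u = v)
    (hlink : ∀ v, ¬P v → K.face {v} →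
      ((K.link {v}).restrict fun u => P u ∨ key u < key v).Ex m)
    (h : (K.restrict P).Ex m) : K.Ex m := by
  intro j hj z hz hzc
  obtain ⟨z', hz', hz'b, y, hy, rfl⟩ := push K P key m hne hlink hj.le z hz
    (fun σ hσ => by simp [hzc] at hσ)
  obtain ⟨w, hw, rfl⟩ := h j hj z' hz' (hz'b.trans hzc)
  refine ⟨w + y, Submodule.add_mem _ ((Band.mem_chains K).2 fun σ hσ => ?_) hy, map_add _ _ _⟩
  exact ⟨((Band.mem_chains _).1 hw σ hσ).1.1, ((Band.mem_chains _).1 hw σ hσ).2⟩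

end Vale.Agent.P067.Cob.Bld
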