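import Vale.Agent.P067.Cob.Building.Lattice
import Vale.Agent.P067.Cob.Building.Morse
import Vale.Agent.P067.Cob.Part

/-!
The complex of normalised lattices: it is exact, the descending links for the key are bands of
subspace systems, and so the balanced lattices form a complex exact in small sizes.
-/

namespace Vale.Agent.P067.Cob.Bld

open Finset

open scoped Classical

attribute [-instance] Subtype.instDecidableEq

variable {F : Type} [Field F] {k : ℕ}

namespace Lat

/-- `M ≤ N ≤ τ M`. -/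
def Rel (M N : Lat F k) : Prop := M.car ≤ N.car ∧ N.car ≤ (M.shift 1).car

/-- Adjacent lattices. -/
def Adj (M N : Lat F k) : Prop := M.Rel N ∨ N.Rel M

/-- Normalised: inside `Below 0`, but not after multiplication by `X`. -/
def Nml (M : Lat F k) : Prop := M.car ≤ Below 0 ∧ ¬ (M.shift 1).car ≤ Below 0

theorem Rel.refl (M : Lat F k) : M.Rel M := ⟨le_rfl, M.le_shift_one⟩

theorem Adj.symm {M N : Lat F k} (h : M.Adj N) : N.Adj M := Or.symm h

theorem shift_le_iff {M N : Lat F k} (j : ℤ) :
    (M.shift j).car ≤ (N.shift j).car ↔ M.car ≤ N.car := by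
  refine ⟨fun h => ?_, shift_le_shift j⟩
  have := shift_le_shift (-j) h
  rwa [shift_shift, shift_shift, add_neg_cancel, shift_zero, shift_zero] at this

theorem le_shift_of_le {M N : Lat F k} {i : ℤ} (h : M.car ≤ (N.shift i).car) (j : ℤ) :
    (M.shift j).car ≤ (N.shift (i + j)).car := by
  simpa [shift_shift] using shift_le_shift j h

variable [NeZero k]

theorem exists_idx (M : Lat F k) : ∃ j, (M.shift j).Nml := by
  have hk : (1 : ℤ) ≤ k := by exact_mod_cast NeZero.pos k
  obtain ⟨c, hc⟩ := M.hi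
  have hb : ∃ b, ∀ j, (M.shift j).car ≤ Below 0 → j ≤ b := by
    refine ⟨|M.top 0|, fun j hj => ?_⟩
    obtain ⟨v, hv, hq⟩ := (M.shift j).top_mem 0
    have := hq.le_of_mem_Below (hj hv)
    rw [top_shift] at this
    have := neg_abs_le (M.top 0)
    have := abs_nonneg (M.top 0)
    nlinarith
  have hi : ∃ j, (M.shift j).car ≤ Below 0 := by
    refine ⟨-|c|, fun v hv => ?_⟩
    have := hc (mem_shift.1 hv)
    rw [sh_mem_Below] at this
    refine Below_mono ?_ this
    have := le_abs_self c
    have := abs_nonneg c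
    nlinarith
  obtain ⟨j, hj, hmax⟩ := Int.exists_greatest_of_bdd hb hi
  refine ⟨j, hj, fun h => ?_⟩
  rw [shift_shift] at h
  have := hmax _ h
  omega

omit [NeZero k] in
theorem Nml.unique {M : Lat F k} {i j : ℤ} (hi : (M.shift i).Nml) (hj : (M.shift j).Nml) :
    i = j := by
  rcases lt_trichotomy i j with h | h | h
  · refine absurd (le_trans ?_ hj.1) hi.2
    rw [shift_shift]; exact M.shift_mono (by omega)
  · exact h
  · refine absurd (le_trans ?_ hi.1) hj.2
    rw [shift_shift]; exact M.shift_mono (by omega)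

end Lat

variable (F k) in
/-- The vertices: normalised lattices. -/
abbrev Vtx := {M : Lat F k // M.Nml}

variable (F k) in
/-- The complex of pairwise adjacent normalised lattices. -/
def BB : Cplx (Vtx F k) where
  face σ := ∀ u ∈ σ, ∀ v ∈ σ, u.1.Adj v.1
  empty := by simp
  down h hs u hu v hv := h u (hs hu) v (hs hv)

theorem face_singleton (v : Vtx F k) : (BB F k).face {v} := by
  intro a ha b hb
  rw [Finset.mem_singleton] at ha hb
  subst ha hb
  exact Or.inl (Lat.Rel.refl _)

theorem link_face {v : Vtx F k} {σ : Finset (Vtx F k)} :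
    ((BB F k).link {v}).face σ ↔ v ∉ σ ∧ (BB F k).face σ ∧ ∀ u ∈ σ, u.1.Adj v.1 := by
  constructor
  · rintro (rfl | ⟨h1, h2⟩)
    · simp [(BB F k).empty]
    · exact ⟨Finset.disjoint_singleton_right.1 h1, (BB F k).down h2 Finset.subset_union_left,
        fun u hu => h2 u (Finset.mem_union_left _ hu) v (Finset.mem_union_right _ (by simp))⟩
  · rintro ⟨h1, h2, h3⟩
    refine Or.inr ⟨Finset.disjoint_singleton_right.2 h1, fun a ha b hb => ?_⟩
    rcases Finset.mem_union.1 ha with ha | ha <;> rcases Finset.mem_union.1 hb with hb | hb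
    · exact h2 a ha b hb
    · rw [Finset.mem_singleton] at hb; exact hb ▸ h3 a ha
    · rw [Finset.mem_singleton] at ha; exact ha ▸ (h3 b hb).symm
    · rw [Finset.mem_singleton] at ha hb; subst ha hb; exact Or.inl (Lat.Rel.refl _)

variable [NeZero k]

/-- The normalised representative. -/
noncomputable def nrm (M : Lat F k) : Vtx F k :=
  ⟨M.shift (Classical.choose M.exists_idx), Classical.choose_spec M.exists_idx⟩

theorem nrm_eq {M : Lat F k} {j : ℤ} (h : (M.shift j).Nml) : (nrm M).1 = M.shift j := by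
  show M.shift _ = M.shift j
  rw [(Classical.choose_spec M.exists_idx).unique h]

theorem nrm_of_nml {M : Lat F k} (h : M.Nml) : (nrm M).1 = M := by
  have h0 : (M.shift 0).Nml := by rwa [Lat.shift_zero]
  rw [nrm_eq h0, Lat.shift_zero]

theorem nrm_shift (M : Lat F k) (i : ℤ) : nrm (M.shift i) = nrm M := by
  obtain ⟨j, hj⟩ := M.exists_idx
  have h' : ((M.shift i).shift (j - i)).Nml := by
    rwa [Lat.shift_shift, add_sub_cancel]
  apply Subtype.ext
  rw [nrm_eq hj, nrm_eq h', Lat.shift_shift, add_sub_cancel]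

theorem adj_nrm {M N : Lat F k} (h : M.Rel N) : (nrm M).1.Adj (nrm N).1 := by
  obtain ⟨i, hi⟩ := M.exists_idx
  obtain ⟨j, hj⟩ := N.exists_idx
  rw [nrm_eq hi, nrm_eq hj]
  have h1 : j ≤ i := by
    by_contra hlt
    refine hi.2 (le_trans ?_ hj.1)
    rw [Lat.shift_shift]
    exact (M.shift_mono (by omega)).trans (Lat.shift_le_shift j h.1)
  have h2 : i ≤ j + 1 := by
    by_contra hlt
    refine hj.2 (le_trans ?_ hi.1)
    rw [Lat.shift_shift]
    exact (Lat.le_shift_of_le h.2 _).trans (M.shift_mono (by omega))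
  rcases h1.lt_or_eq with h3 | rfl
  · right
    refine ⟨(Lat.le_shift_of_le h.2 _).trans (M.shift_mono (by omega)), ?_⟩
    rw [Lat.shift_shift, show i = j + 1 by omega]
    exact Lat.shift_le_shift _ h.1
  · left
    refine ⟨Lat.shift_le_shift _ h.1, ?_⟩
    rw [Lat.shift_shift]
    simpa [add_comm] using Lat.le_shift_of_le h.2 j

/-- The key of a vertex. -/
noncomputable def vkey (v : Vtx F k) : ℕ ×ₗ ℕ ×ₗ ℕ := key v.1.top

/-- A balanced vertex. -/
def VBal (v : Vtx F k) : Prop := Bal v.1.top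

theorem top_nrm (M : Lat F k) : ∃ a, (nrm M).1.top = fun x => M.top x + a := by
  obtain ⟨j, hj⟩ := M.exists_idx
  exact ⟨k * j, funext fun x => by rw [nrm_eq hj, Lat.top_shift]⟩

theorem vkey_nrm (M : Lat F k) : vkey (nrm M) = key M.top := by
  obtain ⟨a, ha⟩ := top_nrm M
  rw [vkey, ha, key_add_const]

section Between

variable (v : Vtx F k)

/-- Lattices strictly between `τ⁻¹ v` and `v`. -/
def Btw (N : Lat F k) : Prop :=
  (v.1.shift (-1)).car ≤ N.car ∧ N.car ≤ v.1.car ∧ N ≠ v.1.shift (-1) ∧ N ≠ v.1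

variable {v}

theorem Btw.idx {N : Lat F k} (h : Btw v N) :
    ((nrm N).1 = N ∧ (nrm N).1.car ≤ v.1.car) ∨
      ((nrm N).1 = N.shift 1 ∧ v.1.car ≤ (nrm N).1.car) := by
  by_cases h1 : (N.shift 1).car ≤ Below 0
  · have h2 : v.1.car ≤ (N.shift 1).car := by
      simpa [Lat.shift_shift, Lat.shift_zero] using Lat.shift_le_shift 1 h.1
    have hn : (N.shift 1).Nml := ⟨h1, fun h3 => v.2.2 (le_trans (Lat.shift_le_shift 1 h2) h3)⟩
    exact Or.inr ⟨nrm_eq hn, by rw [nrm_eq hn]; exact h2⟩
  · have hn : N.Nml := ⟨h.2.1.trans v.2.1, h1⟩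
    exact Or.inl ⟨nrm_of_nml hn, by rw [nrm_of_nml hn]; exact h.2.1⟩

theorem Btw.adj {N : Lat F k} (h : Btw v N) : (nrm N).1.Adj v.1 := by
  have hv : nrm v.1 = v := Subtype.ext (nrm_of_nml v.2)
  have hrel : N.Rel v.1 := ⟨h.2.1, by
    simpa [Lat.shift_shift, Lat.shift_zero] using Lat.shift_le_shift 1 h.1⟩
  simpa [hv] using adj_nrm hrel

theorem Btw.ne {N : Lat F k} (h : Btw v N) : nrm N ≠ v := by
  intro e
  rcases h.idx with ⟨h1, -⟩ | ⟨h1, -⟩
  · exact h.2.2.2 (h1 ▸ congrArg Subtype.val e)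
  · refine h.2.2.1 ?_
    rw [← congrArg Subtype.val e, h1, Lat.shift_shift, add_neg_cancel, Lat.shift_zero]

omit [NeZero k] in
theorem Btw.eq_of_shift {N N' : Lat F k} (h : Btw v N) (h' : Btw v N') (e : N' = N.shift 1) :
    False := by
  refine h'.2.2.2 (Lat.ext (le_antisymm h'.2.1 ?_))
  rw [e]
  simpa [Lat.shift_shift, Lat.shift_zero] using Lat.shift_le_shift 1 h.1

theorem Btw.inj {N N' : Lat F k} (h : Btw v N) (h' : Btw v N') (e : nrm N = nrm N') : N = N' := by
  have e' := congrArg Subtype.val e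
  rcases h.idx with ⟨h1, -⟩ | ⟨h1, -⟩ <;> rcases h'.idx with ⟨h2, -⟩ | ⟨h2, -⟩ <;>
    rw [h1, h2] at e'
  · exact e'
  · exact absurd e' fun e'' => h'.eq_of_shift h e''
  · exact absurd e'.symm fun e'' => h.eq_of_shift h' e''
  · exact Lat.ext (le_antisymm ((Lat.shift_le_iff 1).1 (le_of_eq (congrArg Lat.car e')))
      ((Lat.shift_le_iff 1).1 (le_of_eq (congrArg Lat.car e'.symm))))

theorem exists_btw {u : Vtx F k} (h : u.1.Adj v.1) (hne : u ≠ v) :
    ∃ N, Btw v N ∧ nrm N = u := by
  rcases h with ⟨h1, h2⟩ | ⟨h1, h2⟩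
  · refine ⟨u.1, ⟨by simpa [Lat.shift_shift, Lat.shift_zero] using Lat.shift_le_shift (-1) h2, h1,
      fun e => ?_, fun e => hne (Subtype.ext e)⟩, Subtype.ext (nrm_of_nml u.2)⟩
    refine u.2.2 ?_
    rw [e, Lat.shift_shift, neg_add_cancel, Lat.shift_zero]
    exact v.2.1
  · refine ⟨u.1.shift (-1), ⟨Lat.shift_le_shift _ h1, ?_, fun e => hne ?_, fun e => ?_⟩,
      (nrm_shift _ _).trans (Subtype.ext (nrm_of_nml u.2))⟩
    · simpa [Lat.shift_shift, Lat.shift_zero] using Lat.shift_le_shift (-1) h2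
    · exact Subtype.ext (Lat.ext (le_antisymm
        ((Lat.shift_le_iff (-1)).1 (le_of_eq (congrArg Lat.car e))) h1))
    · refine v.2.2 ?_
      rw [← e, Lat.shift_shift, neg_add_cancel, Lat.shift_zero]
      exact u.2.1

theorem Btw.adj_iff {N N' : Lat F k} (h : Btw v N) (h' : Btw v N') :
    (nrm N).1.Adj (nrm N').1 ↔ N.car ≤ N'.car ∨ N'.car ≤ N.car := by
  have hrel : ∀ {N N' : Lat F k}, Btw v N → Btw v N' → N.car ≤ N'.car → N.Rel N' :=
    fun {N N'} h h' hle => ⟨hle, h'.2.1.trans (by
      simpa [Lat.shift_shift, Lat.shift_zero] using Lat.shift_le_shift 1 h.1)⟩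
  constructor
  · intro hadj
    rcases h.idx with ⟨h1, h1'⟩ | ⟨h1, h1'⟩ <;> rcases h'.idx with ⟨h2, h2'⟩ | ⟨h2, h2'⟩ <;>
      rw [h1, h2] at hadj
    · exact hadj.imp And.left And.left
    · rcases hadj with ⟨-, ha⟩ | ⟨ha, -⟩
      · exact Or.inr ((Lat.shift_le_iff 1).1 ha)
      · refine absurd ?_ h.2.2.2
        exact Lat.ext (le_antisymm h.2.1 (le_trans (h2 ▸ h2') ha))
    · rcases hadj with ⟨ha, -⟩ | ⟨-, ha⟩
      · refine absurd ?_ h'.2.2.2
        exact Lat.ext (le_antisymm h'.2.1 (le_trans (h1 ▸ h1') ha))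
      · exact Or.inl ((Lat.shift_le_iff 1).1 ha)
    · rcases hadj with ⟨ha, -⟩ | ⟨ha, -⟩
      · exact Or.inl ((Lat.shift_le_iff 1).1 ha)
      · exact Or.inr ((Lat.shift_le_iff 1).1 ha)
  · rintro (hle | hle)
    · exact adj_nrm (hrel h h' hle)
    · exact (adj_nrm (hrel h' h hle)).symm

variable (v) in
theorem btw_mid {U : Submodule F (Fin k → F)} (h0 : U ≠ ⊥) (h1 : U ≠ ⊤) :
    Btw v (v.1.mid U) := by
  refine ⟨v.1.le_mid U, v.1.mid_le U, fun e => h0 ?_, fun e => h1 ?_⟩
  · rw [← v.1.comap_mid U, e, eq_bot_iff]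
    exact fun a ha => (Submodule.mem_bot F).2 (v.1.eq_zero_of_WW_mem ha)
  · rw [← v.1.comap_mid U, e, eq_top_iff]
    exact fun a _ => v.1.WW_mem a

theorem Btw.exists_mid {N : Lat F k} (h : Btw v N) :
    ∃ U : Submodule F (Fin k → F), U ≠ ⊥ ∧ U ≠ ⊤ ∧ v.1.mid U = N := by
  refine ⟨N.car.comap v.1.WW, fun e => h.2.2.1 ?_, fun e => h.2.2.2 ?_, v.1.mid_comap h.1 h.2.1⟩
  · have := v.1.mid_comap h.1 h.2.1
    rw [e] at this
    rw [← this]
    exact Lat.ext (by simp [Lat.mid])
  · have h2 := v.1.mid_comap h.1 h.2.1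
    rw [e] at h2
    rw [← h2]
    refine Lat.ext (le_antisymm (v.1.mid_le _) ?_)
    show v.1.car ≤ _ ⊔ Submodule.map v.1.WW ⊤
    rw [Submodule.map_top]
    exact v.1.sup_range_WW

variable (v) in
theorem key_mid (U : Submodule F (Fin k → F)) :
    vkey (nrm (v.1.mid U)) = key (down v.1.top (Finset.univ \ v.1.piv U)) := by
  rw [vkey_nrm, Lat.top_mid]

theorem compl_piv_proper {U : Submodule F (Fin k → F)} (h0 : U ≠ ⊥) (h1 : U ≠ ⊤) :
    (Finset.univ \ v.1.piv U).Nonempty ∧ Finset.univ \ v.1.piv U ≠ Finset.univ := by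
  have hc := v.1.card_piv U
  constructor
  · rw [Finset.sdiff_nonempty]
    intro hsub
    rw [Finset.univ_subset_iff.1 hsub, Finset.card_univ, Fintype.card_fin] at hc
    exact h1 (Submodule.eq_top_of_finrank_eq (by rw [← hc, Module.finrank_fin_fun]))
  · intro e
    have e' : v.1.piv U = ∅ := Finset.eq_empty_of_forall_notMem fun x hx =>
      (Finset.mem_sdiff.1 (e.symm ▸ Finset.mem_univ x)).2 hx
    exact h0 (Submodule.finrank_eq_zero.1 (by rw [← hc, e', Finset.card_empty]))

end Between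

theorem vkey_ne_of_adj {u v : Vtx F k} (h : u.1.Adj v.1) (hne : u ≠ v) : vkey u ≠ vkey v := by
  obtain ⟨N, hN, rfl⟩ := exists_btw h hne
  obtain ⟨U, h0, h1, rfl⟩ := hN.exists_mid
  rw [key_mid]
  obtain ⟨hc0, hc1⟩ := compl_piv_proper (v := v) h0 h1
  exact key_down_ne _ hc0 hc1

/-- The system of subspaces giving descending neighbours. -/
noncomputable def descSys (v : Vtx F k) (hv : ¬ VBal v) : Band.Sys F (Fin k → F) where
  fam := Finset.univ.image fun x => v.1.flag (v.1.top x)
  X U := key (down v.1.top (Finset.univ \ v.1.piv U)) < key v.1.top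
  mono U U' hd h hU := by
    set b := v.1.top with hb
    have hcard : ∀ P : Finset (Fin k), (Finset.univ \ P).card = k - P.card := fun P => by
      rw [Finset.card_sdiff_of_subset (Finset.subset_univ P), Finset.card_univ, Fintype.card_fin]
    refine key_mono v.1.top_injective (C := Finset.univ \ v.1.piv U)
      (by rw [hcard, hcard, v.1.card_piv, v.1.card_piv, hd]) (fun L => ?_) hU
    have hsplit : ∀ P : Finset (Fin k), ((Finset.univ \ P).filter fun x => L ≤ b x).card +
        (P.filter fun x => L ≤ b x).card = (Finset.univ.filter fun x => L ≤ b x).card := by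
      intro P
      rw [← Finset.card_union_of_disjoint (Finset.disjoint_filter_filter Finset.sdiff_disjoint),
        ← Finset.filter_union, Finset.sdiff_union_of_subset (Finset.subset_univ P)]
    have h1 := hsplit (v.1.piv U)
    have h2 := hsplit (v.1.piv U')
    by_cases hex : ∃ x, L ≤ b x
    · obtain ⟨x, hx, hmin⟩ := Finset.exists_min_image (Finset.univ.filter fun x => L ≤ b x) b
        (by obtain ⟨x, hx⟩ := hex; exact ⟨x, by simpa using hx⟩)
      have hle := h (v.1.flag (b x)) (Finset.mem_image_of_mem _ (Finset.mem_univ x))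
      rw [v.1.finrank_inf_flag, v.1.finrank_inf_flag] at hle
      have he : ∀ y, b x ≤ b y ↔ L ≤ b y := fun y =>
        ⟨fun hy => (Finset.mem_filter.1 hx).2.trans hy, fun hy => hmin y (by simpa using hy)⟩
      simp only [← hb, he] at hle
      simp only [hb] at hle h1 h2 ⊢
      omega
    · push Not at hex
      rw [Finset.filter_false_of_mem fun x _ => not_le.2 (hex x), Finset.card_empty]
      exact Nat.zero_le _
  interval A B hAB hA hB j haj hjb := by
    set b := v.1.top with hb
    have hpAB := v.1.piv_mono hAB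
    have hfull : Module.finrank F (Fin k → F) = k := Module.finrank_fin_fun F
    have hcA := v.1.card_piv A
    have hcB := v.1.card_piv B
    have hsub : Finset.univ \ v.1.piv B ⊆ Finset.univ \ v.1.piv A :=
      Finset.sdiff_subset_sdiff le_rfl hpAB
    have hjk : j < k := by
      have := Submodule.finrank_le B
      omega
    have hcs : ∀ P : Finset (Fin k), (Finset.univ \ P).card = k - P.card := fun P => by
      rw [Finset.card_sdiff_of_subset (Finset.subset_univ P), Finset.card_univ, Fintype.card_fin]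
    have hB' : Finset.univ \ v.1.piv B = ∅ ∨
        key (down b (Finset.univ \ v.1.piv B)) < key b := by
      rcases hB with hB | rfl
      · exact Or.inr hB
      · left
        rw [finrank_top, hfull] at hcB
        rw [← Finset.card_eq_zero, hcs, hcB, Nat.sub_self]
    have hA' : Finset.univ \ v.1.piv A = Finset.univ ∨
        key (down b (Finset.univ \ v.1.piv A)) < key b := by
      rcases hA with hA | rfl
      · exact Or.inr hA
      · left
        rw [finrank_bot, Finset.card_eq_zero] at hcA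
        rw [hcA, Finset.sdiff_empty]
    obtain ⟨C, hC0, hC1, hCn, hCkey, -⟩ := key_interval v.1.top_injective hv hsub hB' hA'
      (n := k - j) (by rw [hcs]; omega) (by rw [hcs]; omega)
    set P := Finset.univ \ C with hP
    have hAP : v.1.piv A ⊆ P := fun x hx =>
      Finset.mem_sdiff.2 ⟨Finset.mem_univ _, fun hc => (Finset.mem_sdiff.1 (hC1 hc)).2 hx⟩
    have hPB : P ⊆ v.1.piv B := fun x hx => by
      by_contra hxB
      exact (Finset.mem_sdiff.1 hx).2 (hC0 (Finset.mem_sdiff.2 ⟨Finset.mem_univ _, hxB⟩))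
    have hPc : P.card = j := by rw [hP, hcs, hCn]; omega
    choose a ha hax hay using fun x : ↥(P \ v.1.piv A) =>
      v.1.mem_piv.1 (hPB (Finset.mem_sdiff.1 x.2).1)
    set U := A ⊔ Submodule.span F (Set.range a) with hU
    have hUB : U ≤ B := sup_le hAB (Submodule.span_le.2 (Set.range_subset_iff.2 ha))
    have hPU : P ⊆ v.1.piv U := fun x hx => by
      by_cases hxA : x ∈ v.1.piv A
      · exact v.1.piv_mono le_sup_left hxA
      · exact v.1.mem_piv.2 ⟨a ⟨x, Finset.mem_sdiff.2 ⟨hx, hxA⟩⟩,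
          Submodule.mem_sup_right (Submodule.subset_span ⟨_, rfl⟩), hax ⟨x, _⟩, hay ⟨x, _⟩⟩
    have hle : Module.finrank F U ≤ j := by
      have h1 := Submodule.finrank_add_le_finrank_add_finrank A (Submodule.span F (Set.range a))
      have h2 := finrank_range_le_card (R := F) a
      rw [Fintype.card_coe, Finset.card_sdiff_of_subset hAP, hPc, hcA] at h2
      rw [Set.finrank] at h2
      rw [hU]
      omega
    have hpe : v.1.piv U = P := (Finset.eq_of_subset_of_card_le hPU (by
      rw [v.1.card_piv, hPc]; exact hle)).symm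
    refine ⟨U, ?_, le_sup_left, hUB, by rw [← v.1.card_piv, hpe, hPc]⟩
    rwa [hpe, hP, Finset.sdiff_sdiff_eq_self (Finset.subset_univ C)]

theorem desc_link_ex {v : Vtx F k} (hv : ¬ VBal v) {m : ℕ}
    (hband : ((descSys v hv).band 1 (k - 1)).Ex m) :
    (((BB F k).link {v}).restrict fun u => VBal u ∨ vkey u < vkey v).Ex m := by
  have hX : ∀ U, (descSys v hv).X U → U ≠ ⊥ ∧ U ≠ ⊤ := by
    intro U hU
    have h' : key (down v.1.top (Finset.univ \ v.1.piv U)) < key v.1.top := hU
    have hc := v.1.card_piv U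
    constructor <;> rintro rfl
    · rw [finrank_bot, Finset.card_eq_zero] at hc
      rw [hc, Finset.sdiff_empty, down_univ, key_add_const] at h'
      exact lt_irrefl _ h'
    · rw [finrank_top, Module.finrank_fin_fun] at hc
      rw [(Finset.card_eq_iff_eq_univ _).1 (show (v.1.piv ⊤).card = Fintype.card (Fin k) by
        simp [hc]), Finset.sdiff_self, down_empty] at h'
      exact lt_irrefl _ h'
  refine (Cplx.ex_of_iso ((descSys v hv).band 1 (k - 1)) _
    (fun U => nrm (v.1.mid U)) ?_ ?_ m).1 hband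
  · intro U U' hU hU' e
    obtain ⟨a0, a1⟩ := hX U (hU.1 U (by simp)).1
    obtain ⟨b0, b1⟩ := hX U' (hU'.1 U' (by simp)).1
    rw [← v.1.comap_mid U, ← v.1.comap_mid U', (btw_mid v a0 a1).inj (btw_mid v b0 b1) e]
  intro τ
  constructor
  · rintro ⟨hl, hP⟩
    obtain ⟨hvτ, hτ, hadj⟩ := link_face.1 hl
    have hex : ∀ u ∈ τ, ∃ U, (descSys v hv).X U ∧ nrm (v.1.mid U) = u := by
      intro u hu
      obtain ⟨N, hN, hNu⟩ := exists_btw (hadj u hu) fun e => hvτ (e ▸ hu)
      obtain ⟨U, -, -, rfl⟩ := hN.exists_mid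
      refine ⟨U, ?_, hNu⟩
      show key _ < key _
      rw [← key_mid, hNu]
      rcases hP u hu with h | h
      · refine key_lt_of_M2_lt ?_
        have hb : Bal u.1.top := h
        have hnb : ¬ Bal v.1.top := hv
        have := bal_le v.1.top_injective
        unfold Bal at hb hnb
        omega
      · exact h
    choose! g hgX hg using hex
    refine ⟨τ.image g, ⟨fun U hU => ?_, ?_⟩, ?_⟩
    · obtain ⟨u, hu, rfl⟩ := Finset.mem_image.1 hU
      obtain ⟨h0, h1⟩ := hX _ (hgX u hu)
      have hlt := Submodule.finrank_lt h1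
      rw [Module.finrank_fin_fun] at hlt
      have : Module.finrank F ↥(g u) ≠ 0 := fun e => h0 (Submodule.finrank_eq_zero.1 e)
      exact ⟨hgX u hu, by omega, by omega⟩
    · intro U hU U' hU' _
      obtain ⟨u, hu, rfl⟩ := Finset.mem_image.1 hU
      obtain ⟨u', hu', rfl⟩ := Finset.mem_image.1 hU'
      obtain ⟨a0, a1⟩ := hX _ (hgX u hu)
      obtain ⟨b0, b1⟩ := hX _ (hgX u' hu')
      have := ((btw_mid v a0 a1).adj_iff (btw_mid v b0 b1)).1
        (by rw [hg u hu, hg u' hu']; exact hτ u hu u' hu')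
      simpa only [v.1.mid_le_mid] using this
    · rw [Finset.image_image]
      conv_rhs => rw [← Finset.image_id (s := τ)]
      exact Finset.image_congr fun u hu => hg u hu
  · rintro ⟨σ, ⟨hσ, hch⟩, rfl⟩
    refine ⟨link_face.2 ⟨?_, ?_, ?_⟩, ?_⟩
    · intro h
      obtain ⟨U, hU, e⟩ := Finset.mem_image.1 h
      obtain ⟨a0, a1⟩ := hX _ (hσ U hU).1
      exact (btw_mid v a0 a1).ne e
    · intro a ha c hc
      obtain ⟨U, hU, rfl⟩ := Finset.mem_image.1 ha
      obtain ⟨U', hU', rfl⟩ := Finset.mem_image.1 hc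
      obtain ⟨a0, a1⟩ := hX _ (hσ U hU).1
      obtain ⟨b0, b1⟩ := hX _ (hσ U' hU').1
      exact ((btw_mid v a0 a1).adj_iff (btw_mid v b0 b1)).2
        ((hch.total hU hU').imp v.1.mid_le_mid.2 v.1.mid_le_mid.2)
    · intro a ha
      obtain ⟨U, hU, rfl⟩ := Finset.mem_image.1 ha
      obtain ⟨a0, a1⟩ := hX _ (hσ U hU).1
      exact (btw_mid v a0 a1).adj
    · intro a ha
      obtain ⟨U, hU, rfl⟩ := Finset.mem_image.1 ha
      right
      rw [key_mid]
      exact (hσ U hU).1

variable (F k) in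
/-- The lattice `Below 0`. -/
noncomputable def base : Vtx F k :=
  ⟨{ car := Below 0
     sh_mem := fun v hv => sh_mem_Below.2 (Below_mono (by omega) hv)
     lo := ⟨0, le_rfl⟩
     hi := ⟨0, le_rfl⟩ }, le_rfl, fun h => by
      have hmem : Finsupp.single (k : ℤ) (1 : F) ∈ Below 0 :=
        h (Lat.mem_shift.2 (sh_mem_Below.2 (single_mem_Below (by simp) 1)))
      have := (isOrd_single (F := F) (k : ℤ)).le_of_mem_Below hmem
      have := NeZero.pos k
      omega⟩

/-- The index of a vertex below `Below 0`. -/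
noncomputable def depth (v : Vtx F k) : ℕ := (-∑ x, v.1.top x).toNat

theorem top_nonpos (v : Vtx F k) (x : Fin k) : v.1.top x ≤ 0 := by
  obtain ⟨w, hw, hq⟩ := v.1.top_mem x
  exact hq.le_of_mem_Below (v.2.1 hw)

theorem depth_lt {u v : Vtx F k} (h : u.1.car ≤ v.1.car) (hne : u ≠ v) : depth v < depth u := by
  have h1 : ∑ x, u.1.top x < ∑ x, v.1.top x := by
    refine Finset.sum_lt_sum (fun x _ => Lat.top_mono h x) ?_
    by_contra hall
    push Not at hall
    exact hne (Subtype.ext (Lat.eq_of_top h fun x => hall x (Finset.mem_univ x)))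
  have h2 : ∑ x, v.1.top x ≤ 0 := Finset.sum_nonpos fun x _ => top_nonpos v x
  unfold depth
  omega

theorem ex_BB (m : ℕ) : (BB F k).Ex m := by
  refine ex_of_restrict (BB F k) (fun v => v = base F k) depth m ?_ ?_ ?_
  · intro σ hσ u hu v hv _ _ he
    by_contra hne
    rcases hσ u hu v hv with h | h
    · exact (depth_lt h.1 hne).ne he.symm
    · exact (depth_lt h.1 (Ne.symm hne)).ne he
  · intro v hv _
    have hdesc : ∀ u, u ≠ v → u.1.Adj v.1 → (u = base F k ∨ depth u < depth v) →
        v.1.Rel u.1 := by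
      intro u hne ha hu
      rcases ha with h | h
      · exfalso
        rcases hu with rfl | hu
        · exact hne (Subtype.ext (Lat.ext (le_antisymm h.1 v.2.1)))
        · exact absurd (depth_lt h.1 hne) (by omega)
      · exact h
    -- the apex
    set T : Lat F k :=
      { car := (v.1.shift 1).car ⊓ Below 0
        sh_mem := fun w hw => ⟨(v.1.shift 1).sh_mem w hw.1,
          sh_mem_Below.2 (Below_mono (by omega) hw.2)⟩
        lo := let ⟨a, ha⟩ := v.1.lo
          ⟨a, le_inf (ha.trans v.1.le_shift_one) (ha.trans v.2.1)⟩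
        hi := ⟨0, inf_le_right⟩ }
    have hvT : v.1.car ≤ T.car := le_inf v.1.le_shift_one v.2.1
    have hTn : T.Nml := ⟨inf_le_right, fun h => v.2.2 ((Lat.shift_le_shift 1 hvT).trans h)⟩
    have hTv : (⟨T, hTn⟩ : Vtx F k) ≠ v := by
      intro e
      have e' : (v.1.shift 1).car ⊓ Below 0 = v.1.car := congrArg (fun w : Vtx F k => w.1.car) e
      refine hv (Subtype.ext (Lat.ext (le_antisymm v.2.1 fun w hw => ?_)))
      have key : ∀ n : ℕ, ∀ x : VV F, x ∈ Below 0 → sh (-((k : ℤ) * n)) x ∈ v.1.car →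
          x ∈ v.1.car := by
        intro n
        induction n with
        | zero => intro x _ hx; simpa [sh_zero] using hx
        | succ n ih =>
          intro x hx0 hx
          have hx1 : sh (-((k : ℤ) * n)) x ∈ (v.1.shift 1).car := by
            rw [Lat.mem_shift, sh_sh]
            convert hx using 3
            push_cast; ring
          refine ih x hx0 (e' ▸ ⟨hx1, sh_mem_Below.2 (Below_mono ?_ hx0)⟩)
          have : (0 : ℤ) ≤ (k : ℤ) * n := by positivity
          omega
      obtain ⟨a, ha⟩ := v.1.lo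
      refine key a.natAbs w hw (ha (sh_mem_Below.2 (Below_mono ?_ hw)))
      have hk : (1 : ℤ) ≤ k := by exact_mod_cast NeZero.pos k
      have h1 : -(a.natAbs : ℤ) ≤ a := by omega
      have h2 : (a.natAbs : ℤ) ≤ k * a.natAbs := le_mul_of_one_le_left (by positivity) hk
      omega
    refine ex_of_apex _ ⟨T, hTn⟩ (fun σ hσ => ?_) m
    obtain ⟨hl, hP⟩ := hσ
    obtain ⟨hvσ, hσf, hadj⟩ := link_face.1 hl
    have hall : ∀ u ∈ σ, v.1.Rel u.1 ∧ u.1.Rel T := fun u hu => by
      have h := hdesc u (fun e => hvσ (e ▸ hu)) (hadj u hu) (hP u hu)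
      exact ⟨h, le_inf h.2 u.2.1, inf_le_left.trans (Lat.shift_le_shift 1 h.1)⟩
    refine ⟨link_face.2 ⟨?_, ?_, ?_⟩, ?_⟩
    · simp [hvσ, Ne.symm hTv]
    · intro a ha c hc
      rcases Finset.mem_insert.1 ha with rfl | ha <;> rcases Finset.mem_insert.1 hc with rfl | hc
      · exact Or.inl (Lat.Rel.refl _)
      · exact Or.inr (hall c hc).2
      · exact Or.inl (hall a ha).2
      · exact hσf a ha c hc
    · intro a ha
      rcases Finset.mem_insert.1 ha with rfl | ha
      · exact Or.inr ⟨hvT, inf_le_left⟩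
      · exact hadj a ha
    · intro a ha
      rcases Finset.mem_insert.1 ha with rfl | ha
      · exact Or.inr (depth_lt hvT (Ne.symm hTv))
      · exact hP a ha
  · refine ex_of_apex ((BB F k).restrict fun v => v = base F k) (base F k)
      (fun σ hσ => ⟨?_, ?_⟩) m
    · have hsub : insert (base F k) σ ⊆ {base F k} := by
        intro u hu
        rcases Finset.mem_insert.1 hu with rfl | hu
        · simp
        · simp [hσ.2 u hu]
      exact (BB F k).down (face_singleton _) hsub
    · intro u hu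
      rcases Finset.mem_insert.1 hu with rfl | hu
      · rfl
      · exact hσ.2 u hu

variable (F k) in
/-- The balanced subcomplex. -/
noncomputable def BalC : Cplx (Vtx F k) := (BB F k).restrict VBal

/-- Balanced vertices form a complex exact in sizes below `m` over a large field. -/
theorem ex_BalC (m k : ℕ) [NeZero k] (hmk : m + 1 ≤ k) : ∃ P₀ : ℕ, ∀ (F : Type) [Field F],
    (P₀ : ℕ∞) ≤ ENat.card F → (BalC F k).Ex m := by
  obtain ⟨N, P₀, hband⟩ := Band.band_cone m k (le_refl 1)
  refine ⟨P₀, fun F _ hF => ?_⟩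
  refine ex_restrict (BB F k) VBal vkey m ?_ (fun v hv _ => desc_link_ex hv ?_) (ex_BB m)
  · intro σ hσ u hu v hv _ _ he
    by_contra hne
    exact vkey_ne_of_adj (hσ u hu v hv) hne he
  · refine (hband F (Fin k → F) (descSys v hv) (k - 1) (by omega) ?_ ?_ hF).2
    · rw [Module.finrank_fin_fun]; omega
    · exact Finset.card_image_le.trans (le_of_eq (by simp))

end Vale.Agent.P067.Cob.Bld
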