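import Mathlib

/-!
The Morse key of a lattice in terms of the tops `b` of its residue classes, and its behaviour
when a set `C` of tops drops by `k`.
-/

namespace Vale.Agent.P067.Cob.Bld

open Finset

variable {k : ℕ}

/-- The centred, scaled tops. -/
def cc (b : Fin k → ℤ) (x : Fin k) : ℤ := k * b x - ∑ y, b y

/-- Second moment. -/
def M2 (b : Fin k → ℤ) : ℤ := ∑ x, cc b x ^ 2

/-- Third moment. -/
def M3 (b : Fin k → ℤ) : ℤ := ∑ x, cc b x ^ 3

/-- Decrease of the second moment, divided by `k ^ 2`, when the tops in `C` drop by `k`. -/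
def ee (b : Fin k → ℤ) (C : Finset (Fin k)) : ℤ :=
  2 * ∑ x ∈ C, cc b x - k * C.card * (k - C.card)

/-- Lowering the tops in `C` by `k`. -/
def down (b : Fin k → ℤ) (C : Finset (Fin k)) (x : Fin k) : ℤ := if x ∈ C then b x - k else b x

/-- The tops form an interval of length `k`. -/
def Bal (b : Fin k → ℤ) : Prop := 12 * M2 b = (k : ℤ) ^ 3 * ((k : ℤ) ^ 2 - 1)

/-- The key ordering the vertices. -/
def key [NeZero k] (b : Fin k → ℤ) : ℕ ×ₗ ℕ ×ₗ ℕ :=
  toLex ((M2 b).toNat, toLex ((M2 b ^ 2 - M3 b).toNat, (cc b 0 + M2 b).toNat))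

theorem sum_cc (b : Fin k → ℤ) : ∑ x, cc b x = 0 := by
  simp only [cc, Finset.sum_sub_distrib, ← Finset.mul_sum, Finset.sum_const, Finset.card_univ,
    Fintype.card_fin, nsmul_eq_mul]
  ring

theorem cc_add_const (b : Fin k → ℤ) (a : ℤ) : cc (fun x => b x + a) = cc b := by
  funext x
  simp only [cc, Finset.sum_add_distrib, Finset.sum_const, Finset.card_univ, Fintype.card_fin,
    nsmul_eq_mul]
  ring

theorem key_add_const [NeZero k] (b : Fin k → ℤ) (a : ℤ) :
    key (fun x => b x + a) = key b := by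
  simp only [key, M2, M3, cc_add_const]

theorem cc_down (b : Fin k → ℤ) (C : Finset (Fin k)) (x : Fin k) :
    cc (down b C) x = cc b x + k * C.card - if x ∈ C then (k : ℤ) ^ 2 else 0 := by
  have hs : ∑ y, down b C y = ∑ y, b y - k * C.card := by
    have : ∀ y, down b C y = b y - if y ∈ C then (k : ℤ) else 0 := fun y => by
      unfold down; split_ifs <;> ring
    simp only [this, Finset.sum_sub_distrib, Finset.sum_ite_mem, Finset.univ_inter,
      Finset.sum_const, nsmul_eq_mul]
    ring
  unfold cc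
  rw [hs]
  unfold down
  split_ifs <;> ring

theorem M2_down (b : Fin k → ℤ) (C : Finset (Fin k)) :
    M2 (down b C) = M2 b - (k : ℤ) ^ 2 * ee b C := by
  have h : ∀ x, cc (down b C) x ^ 2 = cc b x ^ 2 + 2 * (k * C.card) * cc b x
      + (k * C.card : ℤ) ^ 2
      + if x ∈ C then (k : ℤ) ^ 4 - 2 * (k : ℤ) ^ 3 * C.card - 2 * (k : ℤ) ^ 2 * cc b x
        else 0 := fun x => by
    rw [cc_down]; split_ifs <;> ring
  simp only [M2, h, Finset.sum_add_distrib, ← Finset.mul_sum, sum_cc, Finset.sum_ite_mem,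
    Finset.univ_inter, Finset.sum_sub_distrib, Finset.sum_const, Finset.card_univ,
    Fintype.card_fin, nsmul_eq_mul, ee]
  ring

theorem down_empty (b : Fin k → ℤ) : down b ∅ = b := by
  funext x; simp [down]

theorem down_univ (b : Fin k → ℤ) : down b Finset.univ = fun x => b x + -(k : ℤ) := by
  funext x; simp [down, sub_eq_add_neg]

theorem down_insert (b : Fin k → ℤ) (C : Finset (Fin k)) {q : Fin k} (hq : q ∉ C) :
    down b (insert q C) = down (down b C) {q} := by
  funext x
  by_cases h : x = q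
  · subst h; simp [down, hq]
  · simp [down, h]

theorem ee_single (b : Fin k → ℤ) (q : Fin k) : ee b {q} = 2 * cc b q - k * (k - 1) := by
  simp [ee]

theorem ee_insert (b : Fin k → ℤ) (C : Finset (Fin k)) {q : Fin k} (hq : q ∉ C) :
    ee b (insert q C) = ee b C + ee (down b C) {q} := by
  rw [ee_single, cc_down, if_neg hq]
  simp only [ee, Finset.card_insert_of_notMem hq, Finset.sum_insert hq, Nat.cast_add,
    Nat.cast_one]
  ring

theorem M3_single (b : Fin k → ℤ) {q : Fin k} (h : ee b {q} = 0) :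
    4 * (M3 (down b {q}) - M3 b) = k * (12 * M2 b - (k : ℤ) ^ 3 * ((k : ℤ) ^ 2 - 1)) := by
  have hc : 2 * (cc b q + k) = k * (k + 1) := by
    rw [ee_single] at h; linarith
  have h' : ∀ x, cc (down b {q}) x ^ 3 = cc b x ^ 3 + 3 * (k : ℤ) * cc b x ^ 2
      + 3 * (k : ℤ) ^ 2 * cc b x + (k : ℤ) ^ 3
      + if x = q then ((cc b q + k) - (k : ℤ) ^ 2) ^ 3 - (cc b q + k) ^ 3 else 0 := fun x => by
    rw [cc_down]
    by_cases hx : x = q
    · subst hx; simp; ring
    · simp [hx]; ring
  simp only [M3, h', Finset.sum_add_distrib, ← Finset.mul_sum, sum_cc, Finset.sum_ite_eq',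
    Finset.mem_univ, if_true, Finset.sum_const, Finset.card_univ, Fintype.card_fin, nsmul_eq_mul,
    M2]
  linear_combination (-3 * (k : ℤ) ^ 2 * (2 * (cc b q + k) + k * (k + 1)) + 6 * (k : ℤ) ^ 4) * hc

theorem M2_nonneg (b : Fin k → ℤ) : 0 ≤ M2 b := Finset.sum_nonneg fun _ _ => sq_nonneg _

theorem abs_cc_le (b : Fin k → ℤ) (x : Fin k) : |cc b x| ≤ M2 b := by
  refine le_trans ?_ (Finset.single_le_sum (f := fun y => cc b y ^ 2)
    (fun y _ => sq_nonneg _) (Finset.mem_univ x))
  exact Int.natCast_natAbs (cc b x) ▸ Int.natAbs_le_self_sq _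

theorem M3_le (b : Fin k → ℤ) : M3 b ≤ M2 b ^ 2 := by
  calc M3 b ≤ ∑ x, cc b x ^ 2 * M2 b := Finset.sum_le_sum fun x _ => by
        rw [show cc b x ^ 3 = cc b x ^ 2 * cc b x by ring]
        exact mul_le_mul_of_nonneg_left ((le_abs_self _).trans (abs_cc_le b x)) (sq_nonneg _)
    _ = _ := by rw [← Finset.sum_mul]; rw [M2]; ring

section Order

variable [NeZero k] {b b' : Fin k → ℤ}

theorem key_lt_of_M2_lt (h : M2 b' < M2 b) : key b' < key b := by
  have := M2_nonneg b'
  exact Prod.Lex.toLex_lt_toLex.2 (Or.inl (by simp only; omega))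

theorem key_lt_of_M3_lt (h : M2 b' = M2 b) (h3 : M3 b < M3 b') : key b' < key b := by
  have h1 := M3_le b'
  refine Prod.Lex.toLex_lt_toLex.2 (Or.inr ⟨by simp only; rw [h], ?_⟩)
  exact Prod.Lex.toLex_lt_toLex.2 (Or.inl (by simp only; rw [h] at h1 ⊢; omega))

theorem M2_le_of_key_le (h : key b' ≤ key b) :
    M2 b' ≤ M2 b ∧ (M2 b' = M2 b → M3 b ≤ M3 b') := by
  refine ⟨le_of_not_gt fun hlt => absurd h (not_le.2 (key_lt_of_M2_lt hlt)), fun he => ?_⟩
  exact le_of_not_gt fun hlt => absurd h (not_le.2 (key_lt_of_M3_lt he.symm hlt))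

theorem cc_zero_of_key_eq (h : key b' = key b) : cc b' 0 = cc b 0 := by
  simp only [key, EmbeddingLike.apply_eq_iff_eq, Prod.mk.injEq] at h
  obtain ⟨h1, _, h2⟩ := h
  have := M2_nonneg b
  have := M2_nonneg b'
  have := (abs_le.1 (abs_cc_le b 0)).1
  have := (abs_le.1 (abs_cc_le b' 0)).1
  omega

theorem key_down_ne (b : Fin k → ℤ) {C : Finset (Fin k)} (h0 : C.Nonempty)
    (h1 : C ≠ Finset.univ) : key (down b C) ≠ key b := by
  intro h
  have h2 := cc_zero_of_key_eq h
  rw [cc_down] at h2
  have hk : (0 : ℤ) < k := by exact_mod_cast NeZero.pos k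
  have hc : 0 < C.card := h0.card_pos
  have hc' : C.card < k := by
    have := Finset.card_lt_univ_of_notMem (s := C)
      (x := Classical.choose (not_forall.1 (fun hall => h1 (Finset.eq_univ_iff_forall.2 hall))))
      (Classical.choose_spec (not_forall.1 (fun hall => h1 (Finset.eq_univ_iff_forall.2 hall))))
    simpa using this
  split_ifs at h2
  · have : (k : ℤ) * C.card = k * k := by linear_combination h2
    have := mul_left_cancel₀ hk.ne' this
    omega
  · have : (k : ℤ) * C.card = 0 := by linarith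
    rcases mul_eq_zero.1 this with h3 | h3 <;> omega

end Order

/-- Dominating equinumerous sets have at least the same sum, with equality only if equal. -/
theorem sum_dom (b : Fin k → ℤ) (hb : Function.Injective b) {C C' : Finset (Fin k)}
    (hcard : C.card = C'.card)
    (h : ∀ L : ℤ, (C.filter fun x => L ≤ b x).card ≤ (C'.filter fun x => L ≤ b x).card) :
    ∑ x ∈ C, b x ≤ ∑ x ∈ C', b x ∧ (∑ x ∈ C, b x = ∑ x ∈ C', b x → C = C') := by
  classical
  obtain ⟨lo, hlo⟩ : ∃ lo : ℤ, ∀ x, lo < b x :=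
    ⟨-(∑ y, |b y|) - 1, fun x => by
      have := Finset.single_le_sum (f := fun y => |b y|) (fun y _ => abs_nonneg _)
        (Finset.mem_univ x)
      have := neg_abs_le (b x); omega⟩
  obtain ⟨hi, hhi⟩ : ∃ hi : ℤ, ∀ x, b x ≤ hi :=
    ⟨∑ y, |b y|, fun x => (le_abs_self _).trans (Finset.single_le_sum (f := fun y => |b y|)
      (fun y _ => abs_nonneg _) (Finset.mem_univ x))⟩
  have hlayer : ∀ D : Finset (Fin k), ∑ x ∈ D, (b x - lo) =
      ∑ L ∈ Finset.Ioc lo hi, ((D.filter fun x => L ≤ b x).card : ℤ) := by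
    intro D
    simp only [Finset.card_filter, Nat.cast_sum, Nat.cast_ite, Nat.cast_one, Nat.cast_zero]
    rw [Finset.sum_comm]
    refine Finset.sum_congr rfl fun x _ => ?_
    rw [Finset.sum_ite, Finset.sum_const_zero, add_zero, Finset.sum_const, nsmul_one]
    have he : (Finset.Ioc lo hi).filter (fun L => L ≤ b x) = Finset.Ioc lo (b x) := by
      ext L
      simp only [Finset.mem_filter, Finset.mem_Ioc]
      have := hhi x
      omega
    rw [he, Int.card_Ioc]
    have := hlo x
    omega
  have hle : ∑ x ∈ C, (b x - lo) ≤ ∑ x ∈ C', (b x - lo) := by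
    rw [hlayer, hlayer]
    exact Finset.sum_le_sum fun L _ => by exact_mod_cast h L
  refine ⟨?_, fun heq => ?_⟩
  · simp only [Finset.sum_sub_distrib, Finset.sum_const, hcard] at hle
    linarith
  · have he : ∀ L ∈ Finset.Ioc lo hi,
        ((C.filter fun x => L ≤ b x).card : ℤ) = (C'.filter fun x => L ≤ b x).card := by
      refine (Finset.sum_eq_sum_iff_of_le fun L _ => by exact_mod_cast h L).1 ?_
      rw [← hlayer, ← hlayer]
      simp only [Finset.sum_sub_distrib, Finset.sum_const, hcard, heq]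
    ext x
    have h0 : ∀ D : Finset (Fin k), x ∈ D ↔
        (D.filter fun y => b x + 1 ≤ b y).card < (D.filter fun y => b x ≤ b y).card := by
      intro D
      constructor
      · intro hx
        refine Finset.card_lt_card ⟨fun y hy => ?_, fun hsub => ?_⟩
        · simp only [Finset.mem_filter] at hy ⊢; exact ⟨hy.1, by omega⟩
        · have := hsub (Finset.mem_filter.2 ⟨hx, le_refl _⟩)
          simp only [Finset.mem_filter] at this; omega
      · intro hlt
        by_contra hx
        apply hlt.ne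
        congr 1
        refine Finset.filter_congr fun y hy => ?_
        have : b y ≠ b x := fun e => hx (hb e ▸ hy)
        omega
    have e1 : (C.filter fun y => b x ≤ b y).card = (C'.filter fun y => b x ≤ b y).card := by
      exact_mod_cast he (b x) (Finset.mem_Ioc.2 ⟨hlo x, hhi x⟩)
    have e2 : (C.filter fun y => b x + 1 ≤ b y).card =
        (C'.filter fun y => b x + 1 ≤ b y).card := by
      by_cases hx : b x + 1 ≤ hi
      · exact_mod_cast he (b x + 1) (Finset.mem_Ioc.2 ⟨by have := hlo x; omega, hx⟩)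
      · rw [Finset.filter_false_of_mem (fun y _ => by have := hhi y; omega),
          Finset.filter_false_of_mem (fun y _ => by have := hhi y; omega)]
    rw [h0 C, h0 C', e1, e2]

/-- Monotonicity: raising the lowered set strictly decreases the key further. -/
theorem key_mono [NeZero k] {b : Fin k → ℤ} (hb : Function.Injective b) {C C' : Finset (Fin k)}
    (hcard : C.card = C'.card)
    (h : ∀ L : ℤ, (C.filter fun x => L ≤ b x).card ≤ (C'.filter fun x => L ≤ b x).card)
    (hC : key (down b C) < key b) : key (down b C') < key b := by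
  obtain ⟨h1, h2⟩ := sum_dom b hb hcard h
  have hk : (0 : ℤ) < k := by exact_mod_cast NeZero.pos k
  have h0 := (M2_le_of_key_le hC.le).1
  rw [M2_down] at h0
  have h0' : 0 ≤ ee b C := nonneg_of_mul_nonneg_right (by linarith) (by positivity : (0:ℤ) < (k:ℤ)^2)
  rcases h1.lt_or_eq with hlt | heq
  · apply key_lt_of_M2_lt
    rw [M2_down]
    have hd : ee b C' - ee b C = 2 * k * (∑ x ∈ C', b x - ∑ x ∈ C, b x) := by
      simp only [ee, cc, Finset.sum_sub_distrib, ← Finset.mul_sum, Finset.sum_const, hcard]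
      ring
    have : 0 < ee b C' := by nlinarith
    have : 0 < (k : ℤ) ^ 2 * ee b C' := by positivity
    linarith
  · rw [← h2 heq]
    exact hC

theorem twelve_M2 (b : Fin k → ℤ) :
    12 * M2 b = 6 * k * ∑ x, ∑ y, (b x - b y) ^ 2 := by
  have h : ∀ x, cc b x ^ 2 = (k : ℤ) ^ 2 * b x ^ 2 - 2 * k * (∑ y, b y) * b x + (∑ y, b y) ^ 2 :=
    fun x => by unfold cc; ring
  simp only [M2, h, sub_sq, Finset.sum_add_distrib, Finset.sum_sub_distrib, ← Finset.mul_sum,
    ← Finset.sum_mul, Finset.sum_const, Finset.card_univ, Fintype.card_fin, nsmul_eq_mul]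
  ring

theorem sum_id_sq (n : ℕ) : 2 * ∑ i ∈ Finset.range n, (i : ℤ) = n * (n - 1) ∧
    6 * ∑ i ∈ Finset.range n, (i : ℤ) ^ 2 = n * (n - 1) * (2 * n - 1) := by
  induction n with
  | zero => simp
  | succ n ih =>
    constructor <;> simp only [Finset.sum_range_succ, mul_add] <;> push_cast <;>
      [linear_combination ih.1; linear_combination ih.2]

theorem six_pairs (k : ℕ) :
    6 * (k : ℤ) * ∑ x : Fin k, ∑ y : Fin k, ((x.val : ℤ) - y.val) ^ 2 =
      (k : ℤ) ^ 3 * ((k : ℤ) ^ 2 - 1) := by
  obtain ⟨h1, h2⟩ := sum_id_sq k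
  rw [← Fin.sum_univ_eq_sum_range (fun i => (i : ℤ))] at h1
  rw [← Fin.sum_univ_eq_sum_range (fun i => (i : ℤ) ^ 2)] at h2
  simp only [sub_sq, Finset.sum_add_distrib, Finset.sum_sub_distrib, ← Finset.mul_sum,
    ← Finset.sum_mul, Finset.sum_const, Finset.card_univ, Fintype.card_fin, nsmul_eq_mul]
  linear_combination 2 * (k : ℤ) ^ 2 * h2 -
    3 * (k : ℤ) * (2 * ∑ i : Fin k, (i.val : ℤ) + k * (k - 1)) * h1

theorem exists_sorted (b : Fin k → ℤ) (hb : Function.Injective b) :
    ∃ e : Equiv.Perm (Fin k), StrictMono (b ∘ e) :=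
  ⟨Tuple.sort b, (Tuple.monotone_sort b).strictMono_of_injective
    (hb.comp (Tuple.sort b).injective)⟩

theorem sub_le_of_strictMono {s : Fin k → ℤ} (hs : StrictMono s) {x y : Fin k} (h : x ≤ y) :
    (y.val : ℤ) - x.val ≤ s y - s x := by
  have h1 := Finset.card_le_card_of_injOn (s := Finset.Icc x y) (t := Finset.Icc (s x) (s y)) s
    (fun z hz => by
      simp only [Finset.coe_Icc, Set.mem_Icc] at hz ⊢
      exact ⟨hs.monotone hz.1, hs.monotone hz.2⟩) hs.injective.injOn
  rw [Fin.card_Icc, Int.card_Icc] at h1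
  have := hs.monotone h
  have : x.val ≤ y.val := h
  omega

theorem sq_le_of_strictMono {s : Fin k → ℤ} (hs : StrictMono s) (x y : Fin k) :
    ((x.val : ℤ) - y.val) ^ 2 ≤ (s x - s y) ^ 2 := by
  rcases le_total x y with h | h
  · have h1 := sub_le_of_strictMono hs h
    have h2 : x.val ≤ y.val := h
    nlinarith
  · have h1 := sub_le_of_strictMono hs h
    have h2 : y.val ≤ x.val := h
    nlinarith

theorem pairs_perm (b : Fin k → ℤ) (e : Equiv.Perm (Fin k)) :
    ∑ x, ∑ y, ((b ∘ e) x - (b ∘ e) y) ^ 2 = ∑ x, ∑ y, (b x - b y) ^ 2 := by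
  refine Eq.trans ?_ (Equiv.sum_comp e fun x => ∑ y, (b x - b y) ^ 2)
  exact Finset.sum_congr rfl fun x _ => Equiv.sum_comp e fun y => (b (e x) - b y) ^ 2

theorem bal_le {b : Fin k → ℤ} (hb : Function.Injective b) :
    (k : ℤ) ^ 3 * ((k : ℤ) ^ 2 - 1) ≤ 12 * M2 b := by
  obtain ⟨e, he⟩ := exists_sorted b hb
  rw [twelve_M2, ← six_pairs, ← pairs_perm b e]
  exact mul_le_mul_of_nonneg_left (Finset.sum_le_sum fun x _ => Finset.sum_le_sum fun y _ =>
    sq_le_of_strictMono he x y) (by positivity)

theorem bal_iff [NeZero k] {b : Fin k → ℤ} (hb : Function.Injective b) :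
    Bal b ↔ ∃ c : ℤ, ∀ x, c - k < b x ∧ b x ≤ c := by
  obtain ⟨e, he⟩ := exists_sorted b hb
  have hk := NeZero.pos k
  have hle : ∀ x, ((b ∘ e) 0 + (x : Fin k).val) ≤ (b ∘ e) x := fun x => by
    have := sub_le_of_strictMono he (Fin.zero_le x)
    simp only [Fin.val_zero] at this
    omega
  constructor
  · intro h
    refine ⟨(b ∘ e) 0 + k - 1, fun x => ?_⟩
    unfold Bal at h
    rw [twelve_M2, ← six_pairs, ← pairs_perm b e, mul_eq_mul_left_iff,
      or_iff_left (by positivity)] at h
    have h' := (Finset.sum_eq_sum_iff_of_le fun a _ => Finset.sum_le_sum fun c _ =>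
      sq_le_of_strictMono he a c).1 h.symm (e.symm x) (Finset.mem_univ _)
    have h'' := (Finset.sum_eq_sum_iff_of_le fun c _ =>
      sq_le_of_strictMono he (e.symm x) c).1 h' 0 (Finset.mem_univ _)
    have hx : b x = (b ∘ e) (e.symm x) := by simp
    have := hle (e.symm x)
    have h3 : (b ∘ e) (e.symm x) - (b ∘ e) 0 = (e.symm x).val := by
      simp only [Fin.val_zero, Nat.cast_zero, sub_zero] at h''
      have := pow_left_inj₀ (by omega) (by omega) two_ne_zero |>.1 h''
      omega
    have := (e.symm x).isLt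
    omega
  · rintro ⟨c, hc⟩
    unfold Bal
    rw [twelve_M2, ← six_pairs, ← pairs_perm b e]
    have heq : ∀ x : Fin k, (b ∘ e) x = c - k + 1 + x.val := by
      intro x
      have hl : (⟨k - 1, by omega⟩ : Fin k).val = k - 1 := rfl
      have h1 := sub_le_of_strictMono he (x := x) (y := ⟨k - 1, by omega⟩)
        (by show x.val ≤ k - 1; omega)
      have h2 := hle x
      have := hc (e 0)
      have := hc (e ⟨k - 1, by omega⟩)
      have := x.isLt
      simp only [Function.comp_apply] at *
      omega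
    simp only [heq]
    congr 1
    exact Finset.sum_congr rfl fun x _ => Finset.sum_congr rfl fun y _ => by ring

/-- A concave sequence with nonnegative ends is positive inside or identically zero. -/
theorem concave_pos {r : ℕ} (f : ℕ → ℤ)
    (hd : ∀ i, i + 2 ≤ r → f (i + 2) - f (i + 1) ≤ f (i + 1) - f i)
    (h0 : 0 ≤ f 0) (hr : 0 ≤ f r) (i : ℕ) (hi0 : 0 < i) (hir : i < r) :
    0 < f i ∨ ∀ j, j ≤ r → f j = 0 := by
  set d : ℕ → ℤ := fun j => f (j + 1) - f j with hdd
  have hanti : ∀ a c, a ≤ c → c < r → d c ≤ d a := by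
    intro a c hac
    induction c, hac using Nat.le_induction with
    | base => intro _; exact le_rfl
    | succ c hc ih =>
      intro hlt
      exact le_trans (hd c (by omega)) (ih (by omega))
  have htel : ∀ a c, a ≤ c → ∑ j ∈ Finset.Ico a c, d j = f c - f a := by
    intro a c hac
    induction c, hac using Nat.le_induction with
    | base => simp
    | succ c hc ih => rw [Finset.sum_Ico_succ_top hc, ih, hdd]; ring
  by_contra hcon
  push Not at hcon
  obtain ⟨hfi, j, hj, hfj⟩ := hcon
  have hL : ((i : ℕ) : ℤ) * d i ≤ f i - f 0 := by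
    rw [← htel 0 i (Nat.zero_le _)]
    calc ((i : ℕ) : ℤ) * d i = ∑ _j ∈ Finset.Ico 0 i, d i := by simp
      _ ≤ _ := Finset.sum_le_sum fun a ha => hanti a i (by simp at ha; omega) hir
  have hR : f r - f i ≤ ((r - i : ℕ) : ℤ) * d i := by
    rw [← htel i r hir.le]
    calc ∑ a ∈ Finset.Ico i r, d a ≤ ∑ _a ∈ Finset.Ico i r, d i :=
          Finset.sum_le_sum fun a ha => hanti i a (by simp at ha; omega) (by simp at ha; omega)
      _ = _ := by simp
  have hdi : d i = 0 := by
    have hi' : (0 : ℤ) < i := by exact_mod_cast hi0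
    have hri : (0 : ℤ) < (r - i : ℕ) := by exact_mod_cast (Nat.sub_pos_of_lt hir)
    nlinarith
  have hfi' : f i = 0 ∧ f 0 = 0 ∧ f r = 0 := by
    rw [hdi] at hL hR
    refine ⟨?_, ?_, ?_⟩ <;> linarith
  -- all differences vanish
  have hlo : ∀ a, a < i → d a = 0 := by
    intro a ha
    have h1 : ∀ c ∈ Finset.Ico 0 i, 0 ≤ d c := fun c hc => by
      simp at hc
      exact hdi ▸ hanti c i hc.le hir
    have h2 := (Finset.sum_eq_zero_iff_of_nonneg h1).1 (by rw [htel 0 i (Nat.zero_le _)]; linarith)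
    exact h2 a (by simp [ha])
  have hhi : ∀ a, i ≤ a → a < r → d a = 0 := by
    intro a ha har
    have h1 : ∀ c ∈ Finset.Ico i r, d c ≤ 0 := fun c hc => by
      simp at hc
      exact hdi ▸ hanti i c hc.1 hc.2
    have h2 := (Finset.sum_eq_zero_iff_of_nonpos h1).1 (by rw [htel i r hir.le]; linarith)
    exact h2 a (by simp [ha, har])
  apply hfj
  have := htel 0 j (Nat.zero_le _)
  rw [Finset.sum_eq_zero fun a ha => ?_] at this
  · linarith
  · simp at ha
    by_cases hai : a < i
    · exact hlo a hai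
    · exact hhi a (not_lt.1 hai) (by omega)

/-- Interval: between two sets which are extreme or descending there are descending ones. -/
theorem key_interval [NeZero k] {b : Fin k → ℤ} (hb : Function.Injective b) (hnb : ¬ Bal b)
    {C₀ C₁ : Finset (Fin k)} (hsub : C₀ ⊆ C₁)
    (h0 : C₀ = ∅ ∨ key (down b C₀) < key b)
    (h1 : C₁ = Finset.univ ∨ key (down b C₁) < key b)
    {n : ℕ} (hn0 : C₀.card < n) (hn1 : n < C₁.card) :
    ∃ C, C₀ ⊆ C ∧ C ⊆ C₁ ∧ C.card = n ∧ key (down b C) < key b ∧
      ∀ x ∈ C, x ∉ C₀ → ∀ y ∈ C₁, y ∉ C → b y < b x := by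
  classical
  have hk : (0 : ℤ) < k := by exact_mod_cast NeZero.pos k
  set D := C₁ \ C₀ with hD
  set rk : Fin k → ℕ := fun x => (D.filter fun y => b x < b y).card with hrk
  have hanti : ∀ x ∈ D, ∀ y ∈ D, b x < b y → rk y < rk x := by
    intro x hx y hy hxy
    refine Finset.card_lt_card ⟨fun z hz => ?_, fun hs => ?_⟩
    · simp only [Finset.mem_filter] at hz ⊢; exact ⟨hz.1, hxy.trans hz.2⟩
    · have := hs (Finset.mem_filter.2 ⟨hy, hxy⟩)
      simp at this
  have hinj : Set.InjOn rk ↑D := by
    intro x hx y hy he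
    rcases lt_trichotomy (b x) (b y) with h | h | h
    · exact absurd he (hanti x hx y hy h).ne'
    · exact hb h
    · exact absurd he (hanti y hy x hx h).ne
  have himg : D.image rk = Finset.range D.card := by
    refine Finset.eq_of_subset_of_card_le (fun a ha => ?_) ?_
    · obtain ⟨x, hx, rfl⟩ := Finset.mem_image.1 ha
      refine Finset.mem_range.2 (Finset.card_lt_card ⟨Finset.filter_subset _ _, fun hs => ?_⟩)
      have := hs hx
      simp at this
    · rw [Finset.card_image_of_injOn hinj, Finset.card_range]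
  set T : ℕ → Finset (Fin k) := fun i => D.filter fun x => rk x < i with hT
  have hTcard : ∀ i, i ≤ D.card → (T i).card = i := by
    intro i hi
    have : (T i).image rk = Finset.range i := by
      ext a
      simp only [hT, Finset.mem_image, Finset.mem_filter, Finset.mem_range]
      constructor
      · rintro ⟨x, ⟨_, hx⟩, rfl⟩; exact hx
      · intro ha
        have : a ∈ D.image rk := himg ▸ Finset.mem_range.2 (by omega)
        obtain ⟨x, hx, rfl⟩ := Finset.mem_image.1 this
        exact ⟨x, ⟨hx, ha⟩, rfl⟩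
    rw [← Finset.card_image_of_injOn (hinj.mono (Finset.coe_subset.2 (Finset.filter_subset _ _))),
      this, Finset.card_range]
  set Cs : ℕ → Finset (Fin k) := fun i => C₀ ∪ T i with hCs
  have hstep : ∀ i, i < D.card → ∃ q ∈ D, rk q = i ∧ q ∉ Cs i ∧ Cs (i + 1) = insert q (Cs i) := by
    intro i hi
    have : i ∈ D.image rk := himg ▸ Finset.mem_range.2 hi
    obtain ⟨q, hq, hqi⟩ := Finset.mem_image.1 this
    have hqD := Finset.mem_sdiff.1 (hD ▸ hq)
    refine ⟨q, hq, hqi, by simp [hCs, hT, hqi, hqD.2], ?_⟩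
    ext x
    simp only [hCs, hT, Finset.mem_union, Finset.mem_filter, Finset.mem_insert]
    constructor
    · rintro (h | ⟨hx, hlt⟩)
      · exact Or.inr (Or.inl h)
      · rcases (Nat.lt_succ_iff.1 hlt).lt_or_eq with h | h
        · exact Or.inr (Or.inr ⟨hx, h⟩)
        · exact Or.inl (hinj hx hq (by rw [h, hqi]))
    · rintro (rfl | h | ⟨hx, hlt⟩)
      · exact Or.inr ⟨hq, by omega⟩
      · exact Or.inl h
      · exact Or.inr ⟨hx, by omega⟩
  have hC0 : Cs 0 = C₀ := by simp [hCs, hT]
  have hC1 : Cs D.card = C₁ := by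
    have : T D.card = D := Finset.eq_of_subset_of_card_le (Finset.filter_subset _ _)
      (by rw [hTcard _ le_rfl])
    show C₀ ∪ T D.card = C₁
    rw [this, hD, Finset.union_sdiff_of_subset hsub]
  set f : ℕ → ℤ := fun i => ee b (Cs i) with hf
  have hee : ∀ C, (C = ∅ ∨ C = Finset.univ ∨ key (down b C) < key b) →
      0 ≤ ee b C ∧ (ee b C = 0 → M3 b ≤ M3 (down b C)) := by
    intro C hC
    have hle : key (down b C) ≤ key b := by
      rcases hC with rfl | rfl | h
      · rw [down_empty]
      · rw [down_univ, key_add_const]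
      · exact h.le
    obtain ⟨e1, e2⟩ := M2_le_of_key_le hle
    rw [M2_down] at e1 e2
    exact ⟨nonneg_of_mul_nonneg_right (by linarith) (by positivity : (0:ℤ) < (k:ℤ)^2),
      fun h => e2 (by simp [h])⟩
  have e0 := hee (Cs 0) (by rw [hC0]; tauto)
  have e1 := hee (Cs D.card) (by rw [hC1]; tauto)
  have hconc : ∀ i, i + 2 ≤ D.card → f (i + 2) - f (i + 1) ≤ f (i + 1) - f i := by
    intro i hi
    obtain ⟨q, hqD, hqi, hqn, hq⟩ := hstep i (by omega)
    obtain ⟨q', hqD', hqi', hqn', hq'⟩ := hstep (i + 1) (by omega)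
    simp only [hf]
    rw [hq', ee_insert b _ hqn', hq, ee_insert b _ hqn, down_insert b _ hqn, ee_single,
      ee_single, cc_down (down b (Cs i))]
    have hne : q' ≠ q := fun h => by subst h; omega
    have hlt : b q' < b q := by
      rcases lt_trichotomy (b q') (b q) with h | h | h
      · exact h
      · exact absurd (hb h) hne
      · have := hanti q hqD q' hqD' h; omega
    rw [hq] at hqn'
    simp only [Finset.mem_singleton, if_neg hne, Finset.card_singleton, cc, down, if_neg hqn,
      if_neg (fun h => hqn' (Finset.mem_insert_of_mem h)), Nat.cast_one]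
    have := mul_le_mul_of_nonneg_left (show b q' + 1 ≤ b q by omega) hk.le
    nlinarith
  have hcardeq : C₀.card + D.card = C₁.card := by
    rw [hD, Finset.card_sdiff_of_subset hsub]
    have := Finset.card_le_card hsub
    omega
  set i₀ := n - C₀.card with hi₀
  have hi0 : 0 < i₀ := by omega
  have hir : i₀ < D.card := by omega
  refine ⟨Cs i₀, Finset.subset_union_left, Finset.union_subset hsub ?_, ?_, ?_, ?_⟩
  · exact (Finset.filter_subset _ _).trans Finset.sdiff_subset
  · rw [hCs, Finset.card_union_of_disjoint, hTcard _ hir.le]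
    · omega
    · exact Finset.disjoint_left.2 fun x hx hx' =>
        (Finset.mem_sdiff.1 (hD ▸ (Finset.mem_filter.1 hx').1)).2 hx
  · rcases concave_pos f hconc e0.1 e1.1 i₀ hi0 hir with hpos | hzero
    · apply key_lt_of_M2_lt
      rw [M2_down]
      have : 0 < (k : ℤ) ^ 2 * ee b (Cs i₀) := mul_pos (by positivity) hpos
      linarith
    · have hstrict : ∀ i, i < D.card → M3 (down b (Cs i)) < M3 (down b (Cs (i + 1))) := by
        intro i hi
        obtain ⟨q, hqD, hqi, hqn, hq⟩ := hstep i hi
        have h2 : M2 (down b (Cs i)) = M2 b := by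
          rw [M2_down, show ee b (Cs i) = 0 from hzero i hi.le]; ring
        have hsing : ee (down b (Cs i)) {q} = 0 := by
          have := hzero (i + 1) hi
          simp only [hf] at this
          rw [hq, ee_insert b _ hqn, show ee b (Cs i) = 0 from hzero i hi.le, zero_add] at this
          exact this
        have h3 := M3_single _ hsing
        rw [← down_insert b _ hqn, ← hq, h2] at h3
        have hgt : (k : ℤ) ^ 3 * ((k : ℤ) ^ 2 - 1) < 12 * M2 b :=
          lt_of_le_of_ne (bal_le hb) (Ne.symm hnb)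
        nlinarith
      have hmono : ∀ i, 0 < i → i ≤ D.card → M3 (down b (Cs 0)) < M3 (down b (Cs i)) := by
        intro i hi
        induction i, hi using Nat.le_induction with
        | base => intro h; exact hstrict 0 (by omega)
        | succ i hi ih => intro h; exact (ih (by omega)).trans (hstrict i (by omega))
      apply key_lt_of_M3_lt
      · rw [M2_down, show ee b (Cs i₀) = 0 from hzero i₀ hir.le]; ring
      · exact lt_of_le_of_lt (e0.2 (hzero 0 (Nat.zero_le _))) (hmono i₀ hi0 hir.le)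
  · intro x hx hx0 y hy hy'
    simp only [hCs, hT, Finset.mem_union, Finset.mem_filter, not_or, not_and] at hx hy'
    obtain ⟨hxD, hxi⟩ := hx.resolve_left hx0
    have hyD : y ∈ D := hD ▸ Finset.mem_sdiff.2 ⟨hy, hy'.1⟩
    have hyi := hy'.2 hyD
    rcases lt_trichotomy (b y) (b x) with h | h | h
    · exact h
    · rw [hb h] at hyi; omega
    · have := hanti x hxD y hyD h; omega

end Vale.Agent.P067.Cob.Bld
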