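import Vale.Agent.P067.Cob.Building.Key

/-!
Lattices in the space with basis `ℤ` (a shift by `k` is multiplication by `X`), their tops and
the description of the lattices between `τ⁻¹ M` and `M` by subspaces of `Fin k → F`.
-/

namespace Vale.Agent.P067.Cob.Bld

open Finset

open scoped Classical

variable {F : Type*} [Field F] {k : ℕ}

/-- The space of Laurent vectors, written by positions. -/
abbrev VV (F : Type*) [Field F] := ℤ →₀ F

/-- The shift of positions by `c`. -/
noncomputable def sh (c : ℤ) : VV F ≃ₗ[F] VV F := Finsupp.domLCongr (Equiv.addRight c)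

@[simp] theorem sh_apply (c : ℤ) (v : VV F) (q : ℤ) : sh c v q = v (q - c) := by
  simp [sh, Finsupp.domLCongr_apply, sub_eq_add_neg]

theorem sh_single (c q : ℤ) (a : F) : sh c (Finsupp.single q a) = Finsupp.single (q + c) a := by
  simp [sh, Finsupp.domLCongr_apply]

theorem sh_sh (c d : ℤ) (v : VV F) : sh c (sh d v) = sh (d + c) v := by
  ext q; simp only [sh_apply]; congr 1; ring

theorem sh_zero (v : VV F) : sh 0 v = v := by
  ext q; simp

/-- Vectors supported on positions at most `c`. -/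
def Below (c : ℤ) : Submodule F (VV F) := Finsupp.supported F F (Set.Iic c)

/-- Vectors supported on positions at least `c`. -/
def Above (c : ℤ) : Submodule F (VV F) := Finsupp.supported F F (Set.Ici c)

theorem mem_Below {c : ℤ} {v : VV F} : v ∈ Below c ↔ ∀ q, v q ≠ 0 → q ≤ c := by
  simp [Below, Finsupp.mem_supported, Set.subset_def]

theorem mem_Above {c : ℤ} {v : VV F} : v ∈ Above c ↔ ∀ q, v q ≠ 0 → c ≤ q := by
  simp [Above, Finsupp.mem_supported, Set.subset_def]

theorem Below_mono {c d : ℤ} (h : c ≤ d) : (Below c : Submodule F (VV F)) ≤ Below d :=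
  Finsupp.supported_mono (Set.Iic_subset_Iic.2 h)

theorem Above_anti {c d : ℤ} (h : c ≤ d) : (Above d : Submodule F (VV F)) ≤ Above c :=
  Finsupp.supported_mono (Set.Ici_subset_Ici.2 h)

theorem single_mem_Below {c q : ℤ} (h : q ≤ c) (a : F) : Finsupp.single q a ∈ Below c :=
  Finsupp.single_mem_supported F a h

theorem sh_mem_Below {c d : ℤ} {v : VV F} : sh d v ∈ Below c ↔ v ∈ Below (c - d) := by
  simp only [mem_Below, sh_apply]
  constructor <;> intro h q hq
  · have := h (q + d) (by simpa using hq); omega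
  · have := h (q - d) hq; omega

theorem sh_mem_Above {c d : ℤ} {v : VV F} : sh d v ∈ Above c ↔ v ∈ Above (c - d) := by
  simp only [mem_Above, sh_apply]
  constructor <;> intro h q hq
  · have := h (q + d) (by simpa using hq); omega
  · have := h (q - d) hq; omega

/-- `q` is the lowest position of `v`. -/
def IsOrd (v : VV F) (q : ℤ) : Prop := v q ≠ 0 ∧ v ∈ Above q

theorem IsOrd.ne_zero {v : VV F} {q : ℤ} (h : IsOrd v q) : v ≠ 0 := fun e => h.1 (by simp [e])

theorem exists_isOrd {v : VV F} (h : v ≠ 0) : ∃ q, IsOrd v q := by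
  refine ⟨v.support.min' (Finsupp.support_nonempty_iff.2 h),
    Finsupp.mem_support_iff.1 (Finset.min'_mem _ _), mem_Above.2 fun q hq => ?_⟩
  exact Finset.min'_le _ _ (Finsupp.mem_support_iff.2 hq)

theorem IsOrd.unique {v : VV F} {q q' : ℤ} (h : IsOrd v q) (h' : IsOrd v q') : q = q' :=
  le_antisymm (mem_Above.1 h.2 _ h'.1) (mem_Above.1 h'.2 _ h.1)

theorem IsOrd.le_of_mem_Below {v : VV F} {q c : ℤ} (h : IsOrd v q) (hv : v ∈ Below c) : q ≤ c :=
  mem_Below.1 hv _ h.1

theorem IsOrd.add {v w : VV F} {q : ℤ} (h : IsOrd v q) (hw : w ∈ Above (q + 1)) :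
    IsOrd (v + w) q := by
  refine ⟨?_, Submodule.add_mem _ h.2 (Above_anti (by omega) hw)⟩
  have : w q = 0 := by
    by_contra hne
    have := mem_Above.1 hw q hne
    omega
  simp [this, h.1]

theorem IsOrd.shift {v : VV F} {q : ℤ} (h : IsOrd v q) (d : ℤ) : IsOrd (sh d v) (q + d) :=
  ⟨by simpa using h.1, sh_mem_Above.2 (by simpa using h.2)⟩

theorem isOrd_single (q : ℤ) : IsOrd (Finsupp.single q (1 : F)) q :=
  ⟨by simp, Finsupp.single_mem_supported F 1 (le_refl q)⟩

/-- Lowest positions occurring in a submodule. -/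
def Ords (N : Submodule F (VV F)) : Set ℤ := {q | ∃ v ∈ N, IsOrd v q}

theorem Ords_mono {N N' : Submodule F (VV F)} (h : N ≤ N') : Ords N ⊆ Ords N' :=
  fun _ ⟨v, hv, hq⟩ => ⟨v, h hv, hq⟩

/-- A submodule bounded above is determined by its lowest positions. -/
theorem le_of_Ords {N M : Submodule F (VV F)} {c : ℤ} (hNM : N ≤ M) (hM : M ≤ Below c)
    (h : Ords M ⊆ Ords N) : M ≤ N := by
  have key : ∀ (n : ℕ) (v : VV F), v ∈ M → v ∈ Above (c + 1 - n) → v ∈ N := by
    intro n
    induction n with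
    | zero =>
      intro v hv hA
      have : v = 0 := by
        ext q
        by_contra hq
        have := mem_Below.1 (hM hv) q hq
        have := mem_Above.1 hA q hq
        omega
      exact this ▸ N.zero_mem
    | succ n ih =>
      intro v hv hA
      by_cases hq : v (c + 1 - (n + 1 : ℕ)) = 0
      · refine ih v hv (mem_Above.2 fun q hq' => ?_)
        have := mem_Above.1 hA q hq'
        have : q ≠ c + 1 - (n + 1 : ℕ) := fun e => hq' (e ▸ hq)
        omega
      · obtain ⟨w, hw, hwq⟩ := h ⟨v, hv, hq, hA⟩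
        set q₀ : ℤ := c + 1 - (n + 1 : ℕ) with hq₀
        have hmem : v - (v q₀ / w q₀) • w ∈ N := by
          refine ih _ (M.sub_mem hv (M.smul_mem _ (hNM hw))) (mem_Above.2 fun q hq' => ?_)
          have hA' := mem_Above.1 (Submodule.sub_mem _ hA
            (Submodule.smul_mem _ (v q₀ / w q₀) hwq.2)) q hq'
          have : q ≠ q₀ := by
            rintro rfl
            simp [hwq.1] at hq'
          omega
        simpa using N.add_mem hmem (N.smul_mem (v q₀ / w q₀) hw)
  intro v hv
  by_cases h0 : v = 0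
  · exact h0 ▸ N.zero_mem
  obtain ⟨q, hq⟩ := exists_isOrd h0
  refine key (c + 1 - q).toNat v hv (Above_anti ?_ hq.2)
  omega

variable (F k) in
/-- A lattice: closed under `τ⁻¹` and between two half spaces. -/
@[ext]
structure Lat where
  car : Submodule F (VV F)
  sh_mem : ∀ v ∈ car, sh (-(k : ℤ)) v ∈ car
  lo : ∃ a, Below a ≤ car
  hi : ∃ c, car ≤ Below c

namespace Lat

/-- Multiplication by `X ^ j`. -/
noncomputable def shift (M : Lat F k) (j : ℤ) : Lat F k where
  car := M.car.map (sh ((k : ℤ) * j)).toLinearMap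
  sh_mem := by
    rintro v ⟨u, hu, rfl⟩
    refine ⟨sh (-(k : ℤ)) u, M.sh_mem u hu, ?_⟩
    simp only [LinearEquiv.coe_coe, sh_sh, add_comm]
  lo := by
    obtain ⟨a, ha⟩ := M.lo
    refine ⟨a + k * j, fun v hv => ⟨sh (-((k : ℤ) * j)) v, ha ?_, ?_⟩⟩
    · rw [sh_mem_Below]; simpa using hv
    · simp [sh_sh, sh_zero]
  hi := by
    obtain ⟨c, hc⟩ := M.hi
    refine ⟨c + k * j, ?_⟩
    rintro v ⟨u, hu, rfl⟩
    simp only [LinearEquiv.coe_coe, sh_mem_Below, add_sub_cancel_right]
    exact hc hu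

theorem mem_shift {M : Lat F k} {j : ℤ} {v : VV F} :
    v ∈ (M.shift j).car ↔ sh (-((k : ℤ) * j)) v ∈ M.car := by
  constructor
  · rintro ⟨u, hu, rfl⟩; simpa [sh_sh, sh_zero] using hu
  · intro h; exact ⟨_, h, by simp [sh_sh, sh_zero]⟩

theorem shift_shift (M : Lat F k) (i j : ℤ) : (M.shift i).shift j = M.shift (i + j) := by
  ext v
  simp only [mem_shift, sh_sh]
  rw [show -((k : ℤ) * j) + -((k : ℤ) * i) = -((k : ℤ) * (i + j)) by ring]

theorem shift_zero (M : Lat F k) : M.shift 0 = M := by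
  ext v; simp [mem_shift, sh_zero]

theorem shift_le_shift {M N : Lat F k} (j : ℤ) (h : M.car ≤ N.car) :
    (M.shift j).car ≤ (N.shift j).car := Submodule.map_mono h

theorem shift_neg_one_le (M : Lat F k) : (M.shift (-1)).car ≤ M.car := by
  rintro v ⟨u, hu, rfl⟩
  simpa using M.sh_mem u hu

theorem shift_mono (M : Lat F k) {i j : ℤ} (h : i ≤ j) : (M.shift i).car ≤ (M.shift j).car := by
  induction j, h using Int.leInduction with
  | base => exact le_rfl
  | succ j _ ih =>
    refine ih.trans ?_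
    have := shift_neg_one_le (M.shift (j + 1))
    rwa [shift_shift, add_neg_cancel_right] at this

theorem le_shift_one (M : Lat F k) : M.car ≤ (M.shift 1).car := by
  simpa [shift_zero] using M.shift_mono (show (0 : ℤ) ≤ 1 by omega)

variable (M : Lat F k)

/-- The residue class of a position. -/
def res [NeZero k] (q : ℤ) : Fin k :=
  ⟨((-q) % (k : ℤ)).toNat, by
    have h1 := Int.emod_nonneg (-q) (show (k : ℤ) ≠ 0 by exact_mod_cast NeZero.ne k)
    have h2 := Int.emod_lt_of_pos (-q) (show (0 : ℤ) < k by exact_mod_cast NeZero.pos k)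
    omega⟩

variable [NeZero k]

theorem res_eq_iff {q q' : ℤ} : (res q : Fin k) = res q' ↔ (k : ℤ) ∣ q - q' := by
  simp only [res, Fin.ext_iff]
  have h1 := Int.emod_nonneg (-q) (show (k : ℤ) ≠ 0 by exact_mod_cast NeZero.ne k)
  have h1' := Int.emod_nonneg (-q') (show (k : ℤ) ≠ 0 by exact_mod_cast NeZero.ne k)
  rw [show q - q' = -q' - -q by ring, Int.dvd_iff_emod_eq_zero,
    ← Int.emod_eq_emod_iff_emod_sub_eq_zero]
  omega

theorem res_neg (x : Fin k) : (res (-(x.val : ℤ)) : Fin k) = x := by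
  have := x.isLt
  simp [res, Int.emod_eq_of_lt]

theorem res_add (q j : ℤ) : (res (q + k * j) : Fin k) = res q :=
  res_eq_iff.2 ⟨j, by ring⟩

theorem exists_shift_of_res {q q' : ℤ} (h : (res q : Fin k) = res q') :
    ∃ j : ℤ, q = q' + k * j := by
  obtain ⟨j, hj⟩ := res_eq_iff.1 h
  exact ⟨j, by linarith⟩

omit [NeZero k] in
theorem Ords_sub {q : ℤ} (h : q ∈ Ords M.car) (n : ℕ) : q - k * n ∈ Ords M.car := by
  obtain ⟨v, hv, hq⟩ := h
  induction n with
  | zero => exact ⟨v, hv, by simpa using hq⟩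
  | succ n ih =>
    obtain ⟨u, hu, hu'⟩ := ih
    refine ⟨_, M.sh_mem u hu, ?_⟩
    convert hu'.shift (-(k : ℤ)) using 1
    push_cast; ring

theorem exists_top (x : Fin k) : ∃ t, (t ∈ Ords M.car ∧ res t = x) ∧
    ∀ q, q ∈ Ords M.car ∧ res q = x → q ≤ t := by
  obtain ⟨c, hc⟩ := M.hi
  obtain ⟨a, ha⟩ := M.lo
  refine Int.exists_greatest_of_bdd ⟨c, fun q ⟨⟨v, hv, hq⟩, _⟩ => hq.le_of_mem_Below (hc hv)⟩ ?_
  have hk : (1 : ℤ) ≤ k := by exact_mod_cast NeZero.pos k
  refine ⟨-(x.val : ℤ) + k * -(|a| + 1), ⟨_, ha (single_mem_Below ?_ 1), isOrd_single _⟩, ?_⟩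
  · have := neg_abs_le a
    nlinarith [abs_nonneg a]
  · rw [res_add, res_neg]

/-- The largest lowest position in a residue class. -/
noncomputable def top (x : Fin k) : ℤ := Classical.choose (M.exists_top x)

theorem top_mem (x : Fin k) : M.top x ∈ Ords M.car := (Classical.choose_spec (M.exists_top x)).1.1

@[simp] theorem res_top (x : Fin k) : res (M.top x) = x :=
  (Classical.choose_spec (M.exists_top x)).1.2

theorem top_injective : Function.Injective M.top := fun x y h => by
  rw [← M.res_top x, h, res_top]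

theorem le_top {q : ℤ} (h : q ∈ Ords M.car) : q ≤ M.top (res q) :=
  (Classical.choose_spec (M.exists_top _)).2 q ⟨h, rfl⟩

theorem mem_Ords_iff {q : ℤ} : q ∈ Ords M.car ↔ q ≤ M.top (res q) := by
  refine ⟨M.le_top, fun h => ?_⟩
  obtain ⟨j, hj⟩ := exists_shift_of_res (M.res_top (res q))
  have hk : (0 : ℤ) < k := by exact_mod_cast NeZero.pos k
  have hj0 : 0 ≤ j := nonneg_of_mul_nonneg_right (by linarith) hk
  have := M.Ords_sub (M.top_mem (res q)) j.toNat
  rwa [Int.toNat_of_nonneg hj0, hj, add_sub_cancel_right] at this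

theorem top_shift (j : ℤ) (x : Fin k) : (M.shift j).top x = M.top x + k * j := by
  have hmem : ∀ q, q ∈ Ords (M.shift j).car ↔ q - k * j ∈ Ords M.car := fun q => by
    constructor
    · rintro ⟨v, hv, hq⟩
      exact ⟨_, mem_shift.1 hv, by simpa [sub_eq_add_neg] using hq.shift (-((k : ℤ) * j))⟩
    · rintro ⟨v, hv, hq⟩
      refine ⟨sh ((k : ℤ) * j) v, mem_shift.2 (by simpa [sh_sh, sh_zero] using hv), ?_⟩
      simpa using hq.shift ((k : ℤ) * j)
  apply le_antisymm
  · have := M.le_top ((hmem _).1 ((M.shift j).top_mem x))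
    rw [show (M.shift j).top x - k * j = (M.shift j).top x + k * -j by ring, res_add, res_top]
      at this
    linarith
  · have := (M.shift j).le_top ((hmem (M.top x + k * j)).2 (by simpa using M.top_mem x))
    rwa [res_add, res_top] at this

theorem top_mono {M N : Lat F k} (h : M.car ≤ N.car) (x : Fin k) : M.top x ≤ N.top x := by
  simpa using N.le_top (Ords_mono h (M.top_mem x))

theorem eq_of_top {M N : Lat F k} (h : M.car ≤ N.car) (ht : ∀ x, N.top x ≤ M.top x) : M = N := by
  obtain ⟨c, hc⟩ := N.hi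
  refine Lat.ext (le_antisymm h (le_of_Ords h hc fun q hq => ?_))
  exact M.mem_Ords_iff.2 ((N.le_top hq).trans (ht _))

theorem exists_wvec (x : Fin k) : ∃ v ∈ M.car, IsOrd v (M.top x) ∧ v (M.top x) = 1 := by
  obtain ⟨v, hv, hq⟩ := M.top_mem x
  refine ⟨(v (M.top x))⁻¹ • v, M.car.smul_mem _ hv, ⟨?_, Submodule.smul_mem _ _ hq.2⟩, ?_⟩
  · simp [hq.1]
  · simp [hq.1]

/-- Chosen vectors with lowest positions the tops. -/
noncomputable def wvec (x : Fin k) : VV F := Classical.choose (M.exists_wvec x)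

theorem wvec_mem (x : Fin k) : M.wvec x ∈ M.car := (Classical.choose_spec (M.exists_wvec x)).1

theorem isOrd_wvec (x : Fin k) : IsOrd (M.wvec x) (M.top x) :=
  (Classical.choose_spec (M.exists_wvec x)).2.1

/-- The linear map sending the coordinate vectors to the chosen vectors. -/
noncomputable def WW : (Fin k → F) →ₗ[F] VV F := Fintype.linearCombination F M.wvec

theorem WW_apply (a : Fin k → F) : M.WW a = ∑ x, a x • M.wvec x :=
  Fintype.linearCombination_apply F M.wvec a

theorem WW_mem (a : Fin k → F) : M.WW a ∈ M.car := by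
  rw [WW_apply]
  exact Submodule.sum_mem _ fun x _ => M.car.smul_mem _ (M.wvec_mem x)

theorem isOrd_WW {a : Fin k → F} {x : Fin k} (hx : a x ≠ 0)
    (h : ∀ y, M.top y < M.top x → a y = 0) : IsOrd (M.WW a) (M.top x) := by
  rw [WW_apply, ← Finset.add_sum_erase _ _ (Finset.mem_univ x)]
  refine IsOrd.add ⟨by simp [hx, (M.isOrd_wvec x).1],
    Submodule.smul_mem _ _ (M.isOrd_wvec x).2⟩ (Submodule.sum_mem _ fun y hy => ?_)
  by_cases hy' : a y = 0
  · simp [hy']
  · refine Submodule.smul_mem _ _ (Above_anti ?_ (M.isOrd_wvec y).2)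
    have h1 : ¬ M.top y < M.top x := fun hlt => hy' (h y hlt)
    have h2 : M.top y ≠ M.top x := fun e => (Finset.mem_erase.1 hy).1 (M.top_injective e)
    omega

theorem exists_first {a : Fin k → F} (ha : a ≠ 0) :
    ∃ x, a x ≠ 0 ∧ ∀ y, M.top y < M.top x → a y = 0 := by
  obtain ⟨z, hz⟩ := Function.ne_iff.1 ha
  obtain ⟨x, hx, hmin⟩ := Finset.exists_min_image (Finset.univ.filter fun x => a x ≠ 0) M.top
    ⟨z, by simpa using hz⟩
  refine ⟨x, (Finset.mem_filter.1 hx).2, fun y hy => ?_⟩
  by_contra hne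
  exact absurd (hmin y (by simpa using hne)) (not_le.2 hy)

theorem eq_zero_of_WW_mem {a : Fin k → F} (h : M.WW a ∈ (M.shift (-1)).car) : a = 0 := by
  by_contra ha
  obtain ⟨x, hx, hx'⟩ := M.exists_first ha
  have := (M.shift (-1)).le_top ⟨_, h, M.isOrd_WW hx hx'⟩
  rw [res_top, top_shift] at this
  have : (0 : ℤ) < k := by exact_mod_cast NeZero.pos k
  linarith

theorem sup_range_WW : M.car ≤ (M.shift (-1)).car ⊔ LinearMap.range M.WW := by
  obtain ⟨c, hc⟩ := M.hi
  refine le_of_Ords ?_ hc fun q hq => ?_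
  · exact sup_le M.shift_neg_one_le (by rintro _ ⟨a, rfl⟩; exact M.WW_mem a)
  rcases (M.le_top hq).lt_or_eq with hlt | heq
  · refine Ords_mono le_sup_left ((M.shift (-1)).mem_Ords_iff.2 ?_)
    rw [top_shift]
    obtain ⟨j, hj⟩ := exists_shift_of_res (M.res_top (res q))
    have hk : (0 : ℤ) < k := by exact_mod_cast NeZero.pos k
    have : 0 < j := pos_of_mul_pos_right (by linarith) hk.le
    nlinarith
  · refine Ords_mono le_sup_right ?_
    refine ⟨M.WW (Pi.single (res q) 1), LinearMap.mem_range_self _ _, heq ▸ M.isOrd_WW (by simp) ?_⟩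
    intro y hy
    simp [show y ≠ res q from fun e => by subst e; exact lt_irrefl _ hy]

/-- The lattice between `τ⁻¹ M` and `M` given by a subspace. -/
noncomputable def mid (U : Submodule F (Fin k → F)) : Lat F k where
  car := (M.shift (-1)).car ⊔ U.map M.WW
  sh_mem v hv := by
    have hle : (M.shift (-1)).car ⊔ U.map M.WW ≤ M.car :=
      sup_le M.shift_neg_one_le (by rintro _ ⟨a, _, rfl⟩; exact M.WW_mem a)
    refine Submodule.mem_sup_left (mem_shift.2 ?_)
    simpa [sh_sh, sh_zero] using hle hv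
  lo := let ⟨a, ha⟩ := (M.shift (-1)).lo; ⟨a, ha.trans le_sup_left⟩
  hi := let ⟨c, hc⟩ := M.hi
    ⟨c, (sup_le M.shift_neg_one_le (by rintro _ ⟨a, _, rfl⟩; exact M.WW_mem a)).trans hc⟩

theorem mid_le (U : Submodule F (Fin k → F)) : (M.mid U).car ≤ M.car :=
  sup_le M.shift_neg_one_le (by rintro _ ⟨a, _, rfl⟩; exact M.WW_mem a)

theorem le_mid (U : Submodule F (Fin k → F)) : (M.shift (-1)).car ≤ (M.mid U).car := le_sup_left

theorem comap_mid (U : Submodule F (Fin k → F)) : (M.mid U).car.comap M.WW = U := by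
  refine le_antisymm (fun a ha => ?_) fun a ha =>
    Submodule.mem_sup_right (Submodule.mem_map_of_mem ha)
  obtain ⟨u, hu, w, hw, huw⟩ := Submodule.mem_sup.1 ha
  obtain ⟨a', ha', rfl⟩ := Submodule.mem_map.1 hw
  have h0 : a - a' = 0 := M.eq_zero_of_WW_mem (by rw [map_sub, ← huw, add_sub_cancel_right]; exact hu)
  rwa [sub_eq_zero.1 h0]

theorem mid_comap {N : Lat F k} (h1 : (M.shift (-1)).car ≤ N.car) (h2 : N.car ≤ M.car) :
    M.mid (N.car.comap M.WW) = N := by
  refine Lat.ext (le_antisymm (sup_le h1 (Submodule.map_comap_le _ _)) fun v hv => ?_)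
  obtain ⟨u, hu, w, ⟨a, rfl⟩, rfl⟩ := Submodule.mem_sup.1 (M.sup_range_WW (h2 hv))
  refine Submodule.add_mem_sup hu (Submodule.mem_map_of_mem ?_)
  show M.WW a ∈ N.car
  simpa using N.car.sub_mem hv (h1 hu)

theorem mid_le_mid {U U' : Submodule F (Fin k → F)} :
    (M.mid U).car ≤ (M.mid U').car ↔ U ≤ U' := by
  refine ⟨fun h => ?_, fun h => sup_le_sup le_rfl (Submodule.map_mono h)⟩
  rw [← M.comap_mid U, ← M.comap_mid U']
  exact Submodule.comap_mono h

/-- The pivots of a subspace, for the order of the tops. -/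
noncomputable def piv (U : Submodule F (Fin k → F)) : Finset (Fin k) :=
  Finset.univ.filter fun x => ∃ a ∈ U, a x ≠ 0 ∧ ∀ y, M.top y < M.top x → a y = 0

theorem mem_piv {U : Submodule F (Fin k → F)} {x : Fin k} :
    x ∈ M.piv U ↔ ∃ a ∈ U, a x ≠ 0 ∧ ∀ y, M.top y < M.top x → a y = 0 := by
  simp [piv]

theorem piv_mono {U U' : Submodule F (Fin k → F)} (h : U ≤ U') : M.piv U ⊆ M.piv U' := by
  intro x hx
  obtain ⟨a, ha, h'⟩ := M.mem_piv.1 hx
  exact M.mem_piv.2 ⟨a, h ha, h'⟩

theorem top_mid (U : Submodule F (Fin k → F)) :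
    (M.mid U).top = down M.top (Finset.univ \ M.piv U) := by
  funext x
  have hk : (0 : ℤ) < k := by exact_mod_cast NeZero.pos k
  have h1 := top_mono (M.mid_le U) x
  have h2 := top_mono (M.le_mid U) x
  rw [top_shift] at h2
  obtain ⟨j, hj⟩ := exists_shift_of_res (k := k) (q := M.top x) (q' := (M.mid U).top x) (by simp)
  have hj' : j = 0 ∨ j = 1 := by
    have : (0 : ℤ) ≤ j := nonneg_of_mul_nonneg_right (by linarith) hk
    have : j ≤ 1 := le_of_mul_le_mul_left (by linarith) hk
    omega
  by_cases hp : x ∈ M.piv U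
  · obtain ⟨a, ha, hax, hay⟩ := M.mem_piv.1 hp
    have := (M.mid U).le_top ⟨_, Submodule.mem_sup_right (Submodule.mem_map_of_mem ha),
      M.isOrd_WW hax hay⟩
    rw [res_top] at this
    simp only [down, Finset.mem_sdiff, Finset.mem_univ, hp, not_true_eq_false, and_false, if_false]
    linarith
  · simp only [down, Finset.mem_sdiff, Finset.mem_univ, hp, not_false_eq_true, and_self, if_true]
    rcases hj' with rfl | rfl
    · exfalso
      obtain ⟨v, hv, hvq⟩ := (M.mid U).top_mem x
      obtain ⟨u, hu, w, hw, rfl⟩ := Submodule.mem_sup.1 hv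
      obtain ⟨a, ha, rfl⟩ := Submodule.mem_map.1 hw
      simp only [mul_zero, add_zero] at hj
      rw [← hj] at hvq
      have hlt : ∀ y, IsOrd u (M.top y) → False := fun y hy => by
        have := (M.shift (-1)).le_top ⟨u, hu, hy⟩
        rw [res_top, top_shift] at this
        linarith
      by_cases ha0 : a = 0
      · subst ha0
        exact hlt x (by simpa using hvq)
      obtain ⟨z, hz, hz'⟩ := M.exists_first ha0
      by_cases hu0 : u = 0
      · rw [hu0, zero_add] at hvq
        have := M.top_injective ((M.isOrd_WW hz hz').unique hvq)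
        exact hp (this ▸ M.mem_piv.2 ⟨a, ha, hz, hz'⟩)
      obtain ⟨q, hq⟩ := exists_isOrd hu0
      rcases lt_trichotomy q (M.top z) with h | h | h
      · have := hvq.unique (hq.add (Above_anti (by omega) (M.isOrd_WW hz hz').2))
        exact hlt x (this ▸ hq)
      · exact hlt z (h ▸ hq)
      · have : IsOrd (u + M.WW a) (M.top z) := by
          rw [add_comm]; exact (M.isOrd_WW hz hz').add (Above_anti (by omega) hq.2)
        have := M.top_injective (hvq.unique this)
        exact hp (this ▸ M.mem_piv.2 ⟨a, ha, hz, hz'⟩)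
    · linarith

theorem card_piv (U : Submodule F (Fin k → F)) : (M.piv U).card = Module.finrank F U := by
  refine le_antisymm ?_ ?_
  · choose a ha hax hay using fun x : ↥(M.piv U) => M.mem_piv.1 x.2
    have hli : LinearIndependent F fun x : ↥(M.piv U) => (⟨a x, ha x⟩ : U) := by
      rw [Fintype.linearIndependent_iff]
      intro g hg x
      by_contra hx
      obtain ⟨z, hz, hmin⟩ := Finset.exists_min_image
        (Finset.univ.filter fun z : ↥(M.piv U) => g z ≠ 0) (fun z => M.top z)
        ⟨x, by simpa using hx⟩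
      have := congrFun (congrArg Subtype.val hg) (z : Fin k)
      simp only [Submodule.coe_sum, Submodule.coe_smul, Finset.sum_apply, Pi.smul_apply,
        smul_eq_mul, Submodule.coe_zero, Pi.zero_apply] at this
      rw [Finset.sum_eq_single z] at this
      · exact (mul_ne_zero (Finset.mem_filter.1 hz).2 (hax z)) this
      · intro y _ hy
        by_cases hgy : g y = 0
        · simp [hgy]
        · rw [hay y z, mul_zero]
          refine lt_of_le_of_ne (hmin y (by simpa using hgy)) fun e => hy ?_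
          exact Subtype.ext (M.top_injective e).symm
      · simp
    simpa using hli.fintype_card_le_finrank
  · let f : U →ₗ[F] (↥(M.piv U) → F) := LinearMap.pi fun x =>
      (LinearMap.proj (x : Fin k)).comp U.subtype
    have hf : Function.Injective f := by
      rw [injective_iff_map_eq_zero]
      intro a ha
      by_contra hne
      obtain ⟨x, hx, hx'⟩ := M.exists_first (fun e => hne (Subtype.ext e) : (a : Fin k → F) ≠ 0)
      exact hx (congrFun ha ⟨x, M.mem_piv.2 ⟨a, a.2, hx, hx'⟩⟩)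
    simpa using LinearMap.finrank_le_finrank_of_injective hf

/-- Vectors vanishing below position `L`. -/
def flag (L : ℤ) : Submodule F (Fin k → F) where
  carrier := {a | ∀ y, M.top y < L → a y = 0}
  add_mem' {a b} ha hb y hy := by simp [ha y hy, hb y hy]
  zero_mem' _ _ := rfl
  smul_mem' c a ha y hy := by simp [ha y hy]

theorem finrank_inf_flag (U : Submodule F (Fin k → F)) (L : ℤ) :
    Module.finrank F ↥(U ⊓ M.flag L) = ((M.piv U).filter fun x => L ≤ M.top x).card := by
  rw [← M.card_piv]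
  congr 1
  ext x
  simp only [mem_piv, Finset.mem_filter, Submodule.mem_inf]
  constructor
  · rintro ⟨a, ⟨ha, haf⟩, hax, hay⟩
    exact ⟨⟨a, ha, hax, hay⟩, le_of_not_gt fun hlt => hax (haf x hlt)⟩
  · rintro ⟨⟨a, ha, hax, hay⟩, hL⟩
    exact ⟨a, ⟨ha, fun y hy => hay y (lt_of_lt_of_le hy hL)⟩, hax, hay⟩

end Lat

end Vale.Agent.P067.Cob.Bld
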